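/-
# Row 13 (S0015, S0016): blueprint (captain helper2).   No code, text only.

Posts are `select body from posts where id = ...`; tasks: `select * from tasks where rownum = 13`;
landed declarations: table `reg13(file, decl, kind, type)` (helper931).

S0016 (K^ur dense in Kbar for every norm over |.|_p) :
  S0016  <=  SE  <=  GOOD  <=  part C leaves  <=  SS (semistable reduction, structure SSK).
S0015 (sections = decomposition groups of rational places) :
  S0015  <=  S0016 + part A leaves (no semistable reduction needed).

## Part A  (S0015 <= S0016).   Text: #2717 (874) + checks #2868 (251), #2896 (22), #2931 (102), #2981 (831).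
  clause (1) 97 DONE; IsPt / compactness / type 1 ending 275 (A2a..A2d); no invariant norm 251 DONE (LemC9);
  from H_l to G_k 831 DONE (Fp4, Syl); A-TAU 512; A-T (Lemma T) 874; A-E existence 854 (+102, 22, 831: MERGE, T3);
  A-U uniqueness 337 (LIFT*); A-RK2 894; assembly 349 (Props UTau, ETau, GalIn).
  Idea: tau = generator of the l-part of inertia in an l-Sylow of G_k, E = M^(s(tau)).
   (T) a class h in L (L finite over K in E) which is an l-th power over {|X|<1} and over {|X|>=1} becomes an l-th
       power in E: lift the class to Z/l^n by unit patching, Frobenius conjugation tau -> tau^a bounds its order.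
   (E) if tau had no fixed point, pi would be an l-th power at every point of some L; merging good regions along
       circles (T) shows pi in E^(*l): contradiction.
   (U') w1 <> w2 fixed: X = x^l/pi' separates; by LIFT there is at each level y over |X| = 1 with non-split directions
       over 0 and oo; S0016 + F.K. Schmidt (48) at the residue field of y: tau t = t, but tau t = zeta^-1 t.

## Part B  (S0016 <= SE <= GOOD).   Text: #2070 part B, #2273 (92), #2319 (969), #2406/#2700/#2870 (669), #2562 (623).
  SE_669.SE (interface); S0016 <= SE 669 with CUT-END 946, KUM/PUIS/DISC 702, EIS 863, UNR 957 DONE.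
  SE <= GOOD: assembler 803 (TopB_803).  NONCUT 92 DONE, CutCov 92, B-NB 92, LEMW/ANNU/B-ANN 623 + 930, DIV 280,
  TORS 235, LIFT-L 168 (LIFT-1 903 DONE, LIFT-2 243, LIFT-3 365, LIFT-4 903), ASL 930 DONE.
  GOOD (frozen in #3008 (3)):  k, K (gen >= 2), P rational, x uniformiser, delta > 0: exist k'/k finite, pi in k',
   0 < |pi| < delta, L/K.k' finite unramified, iota_L : L -> FP(radius |pi|) over K k', x -> pi y, such that for every
   eps > 0: exist k''/k' finite, q, c in k'', |q| < eps, 0 < |c| < eps, M/L.k'' unramified Galois of p-power degree, a norm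
   v of M with v|L.k'' = (Gauss norm of centre q, radius |c|) o iota_L, z in M, v z <= 1, v(z^p - z - a t^m) < 1,
   t = (x-q)/c, |a| = 1, m >= 2, p does not divide m.
  Everything in part B is done over the base L, geometrically (i.e. for every finite k'''/k'').

## Part C  (GOOD <= SS).   Text: #2541 D2, #2728 (588), #2647 (770), #2860 (928), #2885 (522), #2779 (359), #2715 (921).
  assembler 588 (CDefs_588).  Order of quantifiers: X_1, X' -> k' -> N -> Y cyclic topological cover of degree N -> u -> q -> c.
  C-GR 921 (good reduction), C-LIFTN / C-B1 903, C-TOP = CutCov 92, C-INH 770, C-RANK 770 DONE, C-SLOPES 671, C-TP 928,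
  C-FROB 914, COUNT 262 / 398 (CNT-A 560 DONE, W 777 DONE, G 398 DONE, B 491, P 127, Z 871), M1 / CHART / CARTC 359 (CART
  DONE), CARTIER 700, DIFFP 310, C-HU / NC 522, AX 280 DONE, LEMD 323 DONE, KAS 940 DONE, C-GOOD 940, SS-DESC 372.

## SS (semistable reduction).   Text: #2389 (408), #2812 (607, inventory L1..L16), #2723 (332, SSK).
  STAB 460 (STAB2 267 DONE), STABF / SS-DIR 83, SS-END / SS-AN 809, HENS 899, SS-LIN 953, SS-LU34 935 (LU3 205), SS-CELL 408
  (267 COMP, 270 SUB), SPREAD 607, SS-ONE 863, SS-GLOB 846, ZORN 315 DONE, RED 332 (310), RED-PTS 315, SS-DESC 372, C-INH 770.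
-/
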