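import Mathlib

/-!
# R013 / RR1: relative lengths of subspaces (helper948)

`ri P Q` = length of `Q / P ⊓ Q` over a field (or ring) `k`, in `ℕ∞`.
`h0 M N` = length of `M ⊓ N`, `h1 M N` = length of `V / (M ⊔ N)`.
Main result `chi_index`: if `N ≤ N₁` then
`h0 M N₁ + h1 M N = h0 M N + h1 M N₁ + ri N N₁`.
-/

set_option autoImplicit false

namespace Crest.Agent.R013.RR1_948

section ring

variable {k V : Type*} [Ring k] [AddCommGroup V] [Module k V]

/-- relative length of `Q` over `P` -/
noncomputable def ri (P Q : Submodule k V) : ℕ∞ := Module.length k (Q ⧸ P.submoduleOf Q)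

/-- length of the intersection -/
noncomputable def h0 (M N : Submodule k V) : ℕ∞ := Module.length k (M ⊓ N : Submodule k V)

/-- length of the cokernel of the sum -/
noncomputable def h1 (M N : Submodule k V) : ℕ∞ := Module.length k (V ⧸ (M ⊔ N))

theorem ri_self (P : Submodule k V) : ri P P = 0 := by
  unfold ri
  rw [Module.length_eq_zero_iff, Submodule.submoduleOf_self]
  exact Submodule.Quotient.subsingleton_iff.mpr rfl

theorem ri_bot (P : Submodule k V) : ri ⊥ P = Module.length k P := by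
  unfold ri
  have : (⊥ : Submodule k V).submoduleOf P = ⊥ := by
    ext x; simp [Submodule.submoduleOf]
  rw [this]
  exact LinearEquiv.length_eq (Submodule.quotEquivOfEqBot _ rfl)

theorem ri_top (P : Submodule k V) : ri P ⊤ = Module.length k (V ⧸ P) := by
  unfold ri
  refine LinearEquiv.length_eq ?_
  refine Submodule.Quotient.equiv _ _ (Submodule.topEquiv) ?_
  ext x
  simp [Submodule.submoduleOf]

/-- additivity -/
theorem ri_add {P Q S : Submodule k V} (h : P ≤ Q) (h' : Q ≤ S) :
    ri P S = ri P Q + ri Q S := by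
  unfold ri
  let f : (Q ⧸ P.submoduleOf Q) →ₗ[k] (S ⧸ P.submoduleOf S) :=
    Submodule.mapQ _ _ (Submodule.inclusion h') (by
      intro x hx
      simpa [Submodule.submoduleOf] using hx)
  let g : (S ⧸ P.submoduleOf S) →ₗ[k] (S ⧸ Q.submoduleOf S) :=
    Submodule.mapQ _ _ LinearMap.id (by
      intro x hx
      simp only [Submodule.submoduleOf, Submodule.mem_comap] at hx ⊢
      exact h hx)
  refine Module.length_eq_add_of_exact f g ?_ ?_ ?_
  · rw [← LinearMap.ker_eq_bot, LinearMap.ker_eq_bot']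
    intro x
    obtain ⟨x, rfl⟩ := Submodule.Quotient.mk_surjective _ x
    intro hx
    simp only [f, Submodule.mapQ_apply, Submodule.Quotient.mk_eq_zero] at hx ⊢
    simpa [Submodule.submoduleOf] using hx
  · intro x
    obtain ⟨x, rfl⟩ := Submodule.Quotient.mk_surjective _ x
    exact ⟨Submodule.Quotient.mk x, by simp only [g, Submodule.mapQ_apply, LinearMap.id_apply]⟩
  · intro x
    obtain ⟨x, rfl⟩ := Submodule.Quotient.mk_surjective _ x
    constructor
    · intro hx
      simp only [g, Submodule.mapQ_apply, LinearMap.id_apply, Submodule.Quotient.mk_eq_zero] at hx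
      refine ⟨Submodule.Quotient.mk ⟨x, hx⟩, ?_⟩
      simp only [f, Submodule.mapQ_apply]
      congr 1
    · rintro ⟨y, hy⟩
      obtain ⟨y, rfl⟩ := Submodule.Quotient.mk_surjective _ y
      rw [← hy]
      simp only [f, g, Submodule.mapQ_apply, LinearMap.id_apply, Submodule.Quotient.mk_eq_zero]
      exact y.2

/-- second isomorphism theorem -/
theorem ri_sup (M N : Submodule k V) : ri M (N ⊔ M) = ri M N := by
  unfold ri
  have e := LinearMap.quotientInfEquivSupQuotient N M
  have h1 : M.submoduleOf N = Submodule.comap N.subtype N ⊓ Submodule.comap N.subtype M := by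
    ext x; simp [Submodule.submoduleOf]
  rw [h1]
  exact (LinearEquiv.length_eq e).symm

theorem ri_inf (M N : Submodule k V) : ri (M ⊓ N) N = ri M N := by
  unfold ri
  have h1 : M.submoduleOf N = (M ⊓ N).submoduleOf N := by
    ext x; simp [Submodule.submoduleOf]
  rw [h1]

/-- the index lemma -/
theorem ri_split (M : Submodule k V) {N N₁ : Submodule k V} (h : N ≤ N₁) :
    ri N N₁ = ri (M ⊓ N) (M ⊓ N₁) + ri (M ⊔ N) (M ⊔ N₁) := by
  -- N ≤ N ⊔ (M ⊓ N₁) ≤ N₁
  have h1 : N ≤ (M ⊓ N₁) ⊔ N := le_sup_right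
  have h2 : (M ⊓ N₁) ⊔ N ≤ N₁ := sup_le inf_le_right h
  rw [ri_add h1 h2, ri_sup]
  congr 1
  · rw [← ri_inf N (M ⊓ N₁)]
    congr 1
    rw [inf_comm N, inf_assoc, inf_eq_right.mpr h]
  · have h3 : M ⊔ N₁ = N₁ ⊔ (M ⊔ N) := by
      rw [sup_comm N₁, sup_assoc, sup_eq_right.mpr h]
    rw [h3, ri_sup, ← ri_inf (M ⊔ N) N₁]
    congr 1
    rw [sup_comm M N, sup_inf_assoc_of_le _ h, sup_comm]

theorem chi_index (M : Submodule k V) {N N₁ : Submodule k V} (h : N ≤ N₁) :
    h0 M N₁ + h1 M N = h0 M N + h1 M N₁ + ri N N₁ := by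
  have e0 : h0 M N₁ = h0 M N + ri (M ⊓ N) (M ⊓ N₁) := by
    unfold h0
    rw [← ri_bot, ← ri_bot]
    exact ri_add bot_le (inf_le_inf_left M h)
  have e1 : h1 M N = ri (M ⊔ N) (M ⊔ N₁) + h1 M N₁ := by
    unfold h1
    rw [← ri_top, ← ri_top]
    exact ri_add (sup_le_sup_left h M) le_top
  rw [e0, e1, ri_split M h]
  abel

theorem h0_comm (M N : Submodule k V) : h0 M N = h0 N M := by
  unfold h0; rw [inf_comm]

theorem h1_comm (M N : Submodule k V) : h1 M N = h1 N M := by
  unfold h1; rw [sup_comm]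

theorem h0_mono (M : Submodule k V) {N N₁ : Submodule k V} (h : N ≤ N₁) : h0 M N ≤ h0 M N₁ := by
  unfold h0
  rw [← ri_bot, ← ri_bot, ri_add bot_le (inf_le_inf_left M h)]
  exact le_self_add

theorem h1_anti (M : Submodule k V) {N N₁ : Submodule k V} (h : N ≤ N₁) : h1 M N₁ ≤ h1 M N := by
  unfold h1
  rw [← ri_top, ← ri_top, ri_add (sup_le_sup_left h M) le_top]
  exact le_add_self

/-- transport by a linear automorphism of `V` -/
theorem ri_map {V' : Type*} [AddCommGroup V'] [Module k V'] (e : V ≃ₗ[k] V')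
    (P Q : Submodule k V) :
    ri (P.map (e : V →ₗ[k] V')) (Q.map (e : V →ₗ[k] V')) = ri P Q := by
  unfold ri
  symm
  refine LinearEquiv.length_eq ?_
  refine Submodule.Quotient.equiv _ _ (e.submoduleMap Q) ?_
  ext x
  obtain ⟨x, y, hy, rfl⟩ := x
  simp only [Submodule.submoduleOf, Submodule.mem_map, Submodule.mem_comap, Submodule.subtype_apply]
  constructor
  · rintro ⟨z, hz, hz'⟩
    have := congrArg Subtype.val hz'
    exact ⟨z, hz, this⟩
  · rintro ⟨z, hz, hz'⟩
    have : z = y := e.injective hz'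
    subst this
    exact ⟨⟨z, hy⟩, hz, rfl⟩

theorem h0_map {V' : Type*} [AddCommGroup V'] [Module k V'] (e : V ≃ₗ[k] V')
    (P Q : Submodule k V) :
    h0 (P.map (e : V →ₗ[k] V')) (Q.map (e : V →ₗ[k] V')) = h0 P Q := by
  unfold h0
  rw [← Submodule.map_inf _ e.injective, ← ri_bot, ← ri_bot]
  conv_lhs => rw [← Submodule.map_bot (e : V →ₗ[k] V')]
  exact ri_map e _ _

theorem h1_map {V' : Type*} [AddCommGroup V'] [Module k V'] (e : V ≃ₗ[k] V')
    (P Q : Submodule k V) :
    h1 (P.map (e : V →ₗ[k] V')) (Q.map (e : V →ₗ[k] V')) = h1 P Q := by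
  unfold h1
  rw [← Submodule.map_sup, ← ri_top, ← ri_top]
  have : (⊤ : Submodule k V') = Submodule.map (e : V →ₗ[k] V') ⊤ := by
    rw [Submodule.map_top, LinearEquiv.range]
  rw [this]
  exact ri_map e _ _

end ring

end Crest.Agent.R013.RR1_948
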