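import Mathlib
import Crest.Agent.R013.RR1_948

/-!
# R013 / RR2: the projective line (helper948)

`vinf k` the valuation of `k(X)` at infinity, `Rinf k` its valuation ring, `polyS`, `infS m` the
`k`-subspaces `k[X]`, `X^m R` of `k(X)`; `h0 polyS (infS m) = (m+1)⁺`, `h1 polyS (infS m) = (-1-m)⁺`.
-/

set_option autoImplicit false

namespace Crest.Agent.R013.RR2_948

open Polynomial WithZero
open Crest.Agent.R013.RR1_948

section

theorem lt_exp_iff (a : ℤ) (x : ℤᵐ⁰) : x < exp a ↔ x ≤ exp (a - 1) := by
  induction x using WithZero.expRecOn with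
  | zero => simp
  | exp b =>
    rw [exp_lt_exp, exp_le_exp]; omega

theorem lt_one_iff (x : ℤᵐ⁰) : x < 1 ↔ x ≤ exp (-1) := by
  have := lt_exp_iff 0 x
  simpa using this

variable (k : Type*) [Field k]

/-- the valuation at infinity -/
noncomputable def vinf : Valuation (RatFunc k) ℤᵐ⁰ := by
  classical exact RatFunc.inftyValuation k

/-- the valuation ring at infinity -/
noncomputable def Rinf : ValuationSubring (RatFunc k) := (vinf k).valuationSubring

@[simp] theorem vinf_X : vinf k RatFunc.X = exp 1 := by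
  classical exact RatFunc.inftyValuation.X k

@[simp] theorem vinf_X_zpow (m : ℤ) : vinf k (RatFunc.X ^ m) = exp m := by
  classical exact RatFunc.inftyValuation.X_zpow k m

@[simp] theorem vinf_C {c : k} (hc : c ≠ 0) : vinf k (RatFunc.C c) = 1 := by
  classical exact RatFunc.inftyValuation.C k hc

theorem vinf_C_le (c : k) : vinf k (RatFunc.C c) ≤ 1 := by
  by_cases hc : c = 0
  · simp [hc]
  · rw [vinf_C k hc]

theorem vinf_poly {p : k[X]} (hp : p ≠ 0) :
    vinf k (algebraMap k[X] (RatFunc k) p) = exp (p.natDegree : ℤ) := by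
  classical exact RatFunc.inftyValuation.polynomial k hp

theorem vinf_poly_one_le {p : k[X]} (hp : p ≠ 0) :
    1 ≤ vinf k (algebraMap k[X] (RatFunc k) p) := by
  rw [vinf_poly k hp, ← exp_zero, exp_le_exp]; positivity

theorem vinf_exp {f : RatFunc k} (hf : f ≠ 0) : ∃ n : ℤ, vinf k f = exp n :=
  ⟨log (vinf k f), (exp_log ((_root_.map_ne_zero _).mpr hf)).symm⟩

instance : (vinf k).IsNontrivial := by
  classical exact (inferInstance : (RatFunc.inftyValuation k).IsNontrivial)

instance : IsDiscreteValuationRing (Rinf k) :=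
  (inferInstance : IsDiscreteValuationRing (vinf k).valuationSubring)

theorem mem_Rinf {f : RatFunc k} : f ∈ Rinf k ↔ vinf k f ≤ 1 := Iff.rfl

/-- polynomial part -/
theorem exists_poly_sub (f : RatFunc k) :
    ∃ p : k[X], vinf k (f - algebraMap k[X] (RatFunc k) p) < 1 := by
  refine ⟨f.num / f.denom, ?_⟩
  have hq : algebraMap k[X] (RatFunc k) f.denom ≠ 0 := by
    simpa using f.denom_ne_zero
  have h := EuclideanDomain.div_add_mod f.num f.denom
  have h2 : f - algebraMap k[X] (RatFunc k) (f.num / f.denom)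
      = algebraMap k[X] (RatFunc k) (f.num % f.denom) / algebraMap k[X] (RatFunc k) f.denom := by
    have h3 : algebraMap k[X] (RatFunc k) f.num / algebraMap k[X] (RatFunc k) f.denom = f :=
      RatFunc.num_div_denom f
    have h4 : f * algebraMap k[X] (RatFunc k) f.denom = algebraMap k[X] (RatFunc k) f.num :=
      ((div_eq_iff hq).mp h3).symm
    rw [eq_div_iff hq, sub_mul, h4]
    have h5 := congrArg (algebraMap k[X] (RatFunc k)) h
    simp only [map_add, map_mul] at h5
    rw [← h5]
    ring
  rw [h2, map_div₀]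
  by_cases h0 : f.num % f.denom = 0
  · rw [h0]; simp
  · have hd : (f.num % f.denom).degree < f.denom.degree := EuclideanDomain.mod_lt _ f.denom_ne_zero
    have hd' : (f.num % f.denom).natDegree < f.denom.natDegree :=
      Polynomial.natDegree_lt_natDegree h0 hd
    rw [vinf_poly k h0, vinf_poly k f.denom_ne_zero, ← exp_sub, ← exp_zero, exp_lt_exp]
    omega

theorem exists_C_sub {f : RatFunc k} (hf : vinf k f ≤ 1) :
    ∃ c : k, vinf k (f - RatFunc.C c) < 1 := by
  obtain ⟨p, hp⟩ := exists_poly_sub k f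
  by_cases h0 : p = 0
  · refine ⟨0, ?_⟩
    simpa [h0] using hp
  · have h1 : vinf k (algebraMap k[X] (RatFunc k) p) ≤ 1 := by
      have : algebraMap k[X] (RatFunc k) p = f - (f - algebraMap k[X] (RatFunc k) p) := by ring
      rw [this]
      exact (Valuation.map_sub _ _ _).trans (max_le hf hp.le)
    rw [vinf_poly k h0, ← exp_zero, exp_le_exp] at h1
    have h2 : p.natDegree = 0 := by omega
    refine ⟨p.coeff 0, ?_⟩
    rw [Polynomial.eq_C_of_natDegree_eq_zero h2, RatFunc.algebraMap_C] at hp
    exact hp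

/-- `k[X]` as a `k`-subspace of `k(X)` -/
noncomputable def polyS : Submodule k (RatFunc k) :=
  LinearMap.range (IsScalarTower.toAlgHom k k[X] (RatFunc k)).toLinearMap

theorem mem_polyS {f : RatFunc k} : f ∈ polyS k ↔ f ∈ Set.range (algebraMap k[X] (RatFunc k)) := by
  simp [polyS]

theorem algebraMap_eq_C (c : k) : algebraMap k (RatFunc k) c = RatFunc.C c := by
  rw [← RatFunc.algebraMap_C, IsScalarTower.algebraMap_apply k k[X] (RatFunc k)]
  rfl

/-- `X^m R` as a `k`-subspace of `k(X)` -/
noncomputable def infS (m : ℤ) : Submodule k (RatFunc k) where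
  carrier := {f | vinf k f ≤ exp m}
  add_mem' {a b} ha hb := by
    simp only [Set.mem_ofPred_eq] at ha hb ⊢
    exact (Valuation.map_add _ _ _).trans (max_le ha hb)
  zero_mem' := by simp
  smul_mem' c x hx := by
    simp only [Set.mem_ofPred_eq] at hx ⊢
    rw [Algebra.smul_def, map_mul, algebraMap_eq_C]
    calc vinf k (RatFunc.C c) * vinf k x ≤ 1 * exp m := mul_le_mul' (vinf_C_le k c) hx
      _ = exp m := one_mul _

theorem mem_infS {m : ℤ} {f : RatFunc k} : f ∈ infS k m ↔ vinf k f ≤ exp m := by
  rw [← SetLike.mem_coe]; simp [infS]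

theorem infS_mono {m n : ℤ} (h : m ≤ n) : infS k m ≤ infS k n := fun _ hf =>
  (mem_infS k).mpr (le_trans ((mem_infS k).mp hf) (exp_le_exp.mpr h))

theorem ri_infS (m : ℤ) : ri (infS k (m - 1)) (infS k m) = 1 := by
  unfold ri
  rw [← Module.length_eq_one k k]
  symm
  let f : k →ₗ[k] (infS k m ⧸ (infS k (m - 1)).submoduleOf (infS k m)) :=
    LinearMap.toSpanSingleton k _
      (Submodule.Quotient.mk ⟨RatFunc.X ^ m, by rw [mem_infS, vinf_X_zpow]⟩)
  refine LinearEquiv.length_eq (LinearEquiv.ofBijective f ⟨?_, ?_⟩)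
  · rw [← LinearMap.ker_eq_bot, LinearMap.ker_eq_bot']
    intro c hc
    by_contra hc0
    rw [LinearMap.toSpanSingleton_apply, ← Submodule.Quotient.mk_smul,
      Submodule.Quotient.mk_eq_zero, Submodule.submoduleOf, Submodule.mem_comap] at hc
    have hc' : vinf k (c • RatFunc.X ^ m) ≤ exp (m - 1) := (mem_infS k).mp hc
    rw [Algebra.smul_def, map_mul, algebraMap_eq_C, vinf_C k hc0, vinf_X_zpow, one_mul,
      exp_le_exp] at hc'
    omega
  · intro y
    obtain ⟨⟨y, hy⟩, rfl⟩ := Submodule.Quotient.mk_surjective _ y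
    have hX : (RatFunc.X : RatFunc k) ≠ 0 := RatFunc.X_ne_zero
    have h1 : vinf k (y * RatFunc.X ^ (-m)) ≤ 1 := by
      rw [map_mul, vinf_X_zpow]
      calc vinf k y * exp (-m) ≤ exp m * exp (-m) := mul_le_mul_left ((mem_infS k).mp hy) _
        _ = 1 := by rw [← exp_add]; simp
    obtain ⟨c, hc⟩ := exists_C_sub k h1
    refine ⟨c, ?_⟩
    simp only [f, LinearMap.toSpanSingleton_apply, ← Submodule.Quotient.mk_smul]
    rw [eq_comm, Submodule.Quotient.eq, Submodule.submoduleOf, Submodule.mem_comap]
    have goal : vinf k (y - c • RatFunc.X ^ m) ≤ exp (m - 1) := ?_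
    · exact (mem_infS k).mpr goal
    rw [← lt_exp_iff]
    have : y - c • RatFunc.X ^ m = (y * RatFunc.X ^ (-m) - RatFunc.C c) * RatFunc.X ^ m := by
      rw [Algebra.smul_def, algebraMap_eq_C, sub_mul, mul_assoc, ← zpow_add₀ hX]
      simp
    rw [this, map_mul, vinf_X_zpow]
    calc _ < 1 * exp m := mul_lt_mul_of_pos_right hc (by simp)
      _ = exp m := one_mul _

theorem h0_base : h0 (polyS k) (infS k (-1)) = 0 := by
  unfold h0
  rw [Module.length_eq_zero_iff]
  have : polyS k ⊓ infS k (-1) = ⊥ := by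
    rw [eq_bot_iff]
    rintro f ⟨hf, hf'⟩
    obtain ⟨p, rfl⟩ := (mem_polyS k).mp hf
    by_contra hp
    have hp0 : p ≠ 0 := by
      rintro rfl; apply hp; simp
    have h1 := vinf_poly_one_le k hp0
    have h2 := (lt_one_iff _).mpr ((mem_infS k).mp hf')
    exact absurd h1 (not_le.mpr h2)
  rw [this]
  infer_instance

theorem h1_base : h1 (polyS k) (infS k (-1)) = 0 := by
  unfold h1
  rw [Module.length_eq_zero_iff]
  have : polyS k ⊔ infS k (-1) = ⊤ := by
    rw [eq_top_iff]
    intro f _
    obtain ⟨p, hp⟩ := exists_poly_sub k f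
    have : f = algebraMap k[X] (RatFunc k) p + (f - algebraMap k[X] (RatFunc k) p) := by ring
    rw [this]
    exact Submodule.add_mem_sup ((mem_polyS k).mpr ⟨p, rfl⟩)
      ((mem_infS k).mpr ((lt_one_iff _).mp hp))
  rw [this]
  exact Submodule.Quotient.subsingleton_iff.mpr rfl

theorem h1_ge (m : ℤ) (hm : -1 ≤ m) : h1 (polyS k) (infS k m) = 0 := by
  have := h1_anti (polyS k) (infS_mono k hm)
  rw [h1_base] at this
  exact le_antisymm this bot_le

theorem h0_le (m : ℤ) (hm : m ≤ -1) : h0 (polyS k) (infS k m) = 0 := by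
  have := h0_mono (polyS k) (infS_mono k hm)
  rw [h0_base] at this
  exact le_antisymm this bot_le

theorem h0_infS (m : ℤ) : h0 (polyS k) (infS k m) = ((m + 1).toNat : ℕ∞) := by
  rcases le_total m (-1) with hm | hm
  · rw [h0_le k m hm]
    have : (m + 1).toNat = 0 := by omega
    rw [this]; rfl
  · induction m, hm using Int.leInduction with
    | base => rw [h0_base]; rfl
    | succ m hm ih =>
      have h := chi_index (polyS k) (infS_mono k (show m ≤ m + 1 by omega))
      have h2 := ri_infS k (m + 1)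
      rw [add_sub_cancel_right] at h2
      rw [h1_ge k m hm, h1_ge k (m+1) (by omega), h2, ih, add_zero, add_zero] at h
      rw [h]
      have : (m + 1 + 1).toNat = (m + 1).toNat + 1 := by omega
      rw [this]; push_cast; rfl

theorem h1_infS (m : ℤ) : h1 (polyS k) (infS k m) = ((-1 - m).toNat : ℕ∞) := by
  rcases le_total (-1) m with hm | hm
  · rw [h1_ge k m hm]
    have : (-1 - m).toNat = 0 := by omega
    rw [this]; rfl
  · induction m, hm using Int.leInductionDown with
    | base => rw [h1_base]; rfl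
    | pred m hm ih =>
      have h := chi_index (polyS k) (infS_mono k (show m - 1 ≤ m by omega))
      have h2 := ri_infS k m
      rw [h0_le k m hm, h0_le k (m-1) (by omega), h2, ih, zero_add, zero_add] at h
      rw [h]
      have : (-1 - (m - 1)).toNat = (-1 - m).toNat + 1 := by omega
      rw [this]; push_cast; rfl

end

end Crest.Agent.R013.RR2_948
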