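import Mathlib
import Crest.Agent.R013.RR2_948

/-!
# R013 / RR3: Birkhoff-Grothendieck reduced bases (helper948)
-/

set_option autoImplicit false

namespace Crest.Agent.R013.RR3_948

open Polynomial WithZero Module
open Crest.Agent.R013.RR1_948 Crest.Agent.R013.RR2_948

section Pi

variable {k : Type*} [Field k] {ι : Type*} [Fintype ι] [DecidableEq ι]
  {Ms : ι → Type*} [∀ i, AddCommGroup (Ms i)] [∀ i, Module k (Ms i)]

theorem h1_pi (P Q : ∀ i, Submodule k (Ms i)) :
    h1 (Submodule.pi Set.univ P) (Submodule.pi Set.univ Q) = ∑ i, h1 (P i) (Q i) := by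
  unfold h1
  have : Submodule.pi Set.univ P ⊔ Submodule.pi Set.univ Q
      = Submodule.pi Set.univ (fun i => P i ⊔ Q i) := by
    ext x
    simp only [Submodule.mem_sup, Submodule.mem_pi, Set.mem_univ, true_implies]
    constructor
    · rintro ⟨y, hy, z, hz, rfl⟩ i
      exact ⟨y i, hy i, z i, hz i, rfl⟩
    · intro h
      choose y hy z hz hyz using h
      exact ⟨y, hy, z, hz, funext hyz⟩
  rw [this, ← Module.length_pi_of_fintype]
  exact LinearEquiv.length_eq (Submodule.quotientPi _)

theorem h0_pi (P Q : ∀ i, Submodule k (Ms i)) :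
    h0 (Submodule.pi Set.univ P) (Submodule.pi Set.univ Q) = ∑ i, h0 (P i) (Q i) := by
  unfold h0
  rw [← Module.length_pi_of_fintype]
  symm
  let f : (∀ i, (P i ⊓ Q i : Submodule k (Ms i))) →ₗ[k] (∀ i, Ms i) :=
    LinearMap.pi fun i => (Submodule.subtype _).comp (LinearMap.proj i)
  have hf : Function.Injective f := by
    intro x y hxy
    funext i
    apply Subtype.ext
    exact congrFun hxy i
  have hr : LinearMap.range f = (Submodule.pi Set.univ P ⊓ Submodule.pi Set.univ Q) := by
    ext x
    simp only [LinearMap.mem_range, Submodule.mem_inf, Submodule.mem_pi, Set.mem_univ, true_implies]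
    constructor
    · rintro ⟨y, rfl⟩
      exact ⟨fun i => (y i).2.1, fun i => (y i).2.2⟩
    · rintro ⟨h1, h2⟩
      exact ⟨fun i => ⟨x i, h1 i, h2 i⟩, rfl⟩
  rw [← hr]
  exact LinearEquiv.length_eq (LinearEquiv.ofInjective f hf)

end Pi

section BG

variable {k : Type*} [Field k] {ι : Type*} [Fintype ι] [DecidableEq ι]

theorem det_bound (B : Matrix ι ι (RatFunc k)) (d : ι → ℤ)
    (h : ∀ i j, vinf k (B i j) ≤ exp (d j)) : vinf k B.det ≤ exp (∑ j, d j) := by
  rw [Matrix.det_apply]
  refine Valuation.map_sum_le _ fun σ _ => ?_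
  have h1 : vinf k ((Equiv.Perm.sign σ) • ∏ i, B (σ i) i) = vinf k (∏ i, B (σ i) i) := by
    rcases Int.units_eq_one_or (Equiv.Perm.sign σ) with h | h
    · rw [h, one_smul]
    · rw [h, Units.neg_smul, one_smul, Valuation.map_neg]
  rw [h1, map_prod]
  have h2 : exp (∑ j, d j) = ∏ j, exp (d j) := by
    induction (Finset.univ : Finset ι) using Finset.induction_on with
    | empty => simp
    | insert a s ha ih => rw [Finset.sum_insert ha, Finset.prod_insert ha, exp_add, ih]
  rw [h2]
  exact Finset.prod_le_prod' fun i _ => h (σ i) i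

/-- a family spanning the same `k[X]`-module as a basis is a basis -/
theorem exists_basis_of_span {V : Type*} [AddCommGroup V] [Module (RatFunc k) V] [Module k[X] V]
    [IsScalarTower k[X] (RatFunc k) V] (b0 : Basis ι (RatFunc k) V) (b : ι → V)
    (h : Submodule.span k[X] (Set.range b) = Submodule.span k[X] (Set.range b0)) :
    ∃ b' : Basis ι (RatFunc k) V, ⇑b' = b := by
  have h1 : ⊤ ≤ Submodule.span (RatFunc k) (Set.range b) := by
    rw [← b0.span_eq, Submodule.span_le]
    rintro _ ⟨i, rfl⟩
    have : b0 i ∈ Submodule.span k[X] (Set.range b) := by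
      rw [h]; exact Submodule.subset_span ⟨i, rfl⟩
    exact Submodule.span_le_restrictScalars k[X] (RatFunc k) _ this
  exact ⟨basisOfTopLeSpanOfCardEqFinrank b h1 (Module.finrank_eq_card_basis b0).symm, by simp⟩

theorem exists_reduced {V : Type*} [AddCommGroup V] [Module (RatFunc k) V] [Module k[X] V]
    [IsScalarTower k[X] (RatFunc k) V] (b0 c : Basis ι (RatFunc k) V) :
    ∃ (b : Basis ι (RatFunc k) V) (d : ι → ℤ),
      Submodule.span k[X] (Set.range b) = Submodule.span k[X] (Set.range b0) ∧
      (∀ j i, vinf k (c.repr (b j) i) ≤ exp (d j)) ∧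
      vinf k (c.toMatrix b).det = exp (∑ j, d j) := by
  classical
  have : Module.IsTorsionFree k[X] (RatFunc k) := inferInstance
  let P : ℤ → Prop := fun s => ∃ (b : ι → V) (d : ι → ℤ),
      Submodule.span k[X] (Set.range b) = Submodule.span k[X] (Set.range b0) ∧
      (∀ j i, vinf k (c.repr (b j) i) ≤ exp (d j)) ∧ s = ∑ j, d j
  -- det of a basis
  have hdet : ∀ b : Basis ι (RatFunc k) V, (c.toMatrix b).det ≠ 0 := by
    intro b
    have h := c.toMatrix_mul_toMatrix_flip b
    intro h0
    have h1 := congrArg Matrix.det h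
    rw [Matrix.det_mul, h0, zero_mul, Matrix.det_one] at h1
    exact zero_ne_one h1
  have hbdd : ∃ b, ∀ z, P z → b ≤ z := by
    obtain ⟨D, hD⟩ := vinf_exp k (hdet b0)
    refine ⟨D, ?_⟩
    rintro _ ⟨b, d, hb, hd, rfl⟩
    obtain ⟨b, rfl⟩ := exists_basis_of_span b0 b hb
    have h1 : vinf k (c.toMatrix b).det ≤ exp (∑ j, d j) :=
      det_bound _ d (fun i j => hd j i)
    have h2 : c.toMatrix b = c.toMatrix b0 * b0.toMatrix b :=
      (c.toMatrix_mul_toMatrix b0 b).symm
    have h3 : ∀ i j, ∃ p : k[X], algebraMap k[X] (RatFunc k) p = b0.toMatrix b i j := by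
      intro i j
      have : b j ∈ Submodule.span k[X] (Set.range b0) := by
        rw [← hb]; exact Submodule.subset_span ⟨j, rfl⟩
      exact (b0.mem_span_iff_repr_mem k[X] _).mp this i
    choose p hp using h3
    have h4 : b0.toMatrix b = (algebraMap k[X] (RatFunc k)).mapMatrix (Matrix.of p) := by
      ext i j; simp [hp]
    have h5 : (b0.toMatrix b).det = algebraMap k[X] (RatFunc k) (Matrix.of p).det := by
      rw [h4, ← RingHom.map_det]
    have h6 : (Matrix.of p).det ≠ 0 := by
      intro h0
      rw [h0, map_zero] at h5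
      apply hdet b
      rw [h2, Matrix.det_mul, h5, mul_zero]
    have h7 : exp D ≤ vinf k (c.toMatrix b).det := by
      rw [h2, Matrix.det_mul, h5, map_mul, hD]
      calc exp D = exp D * 1 := (mul_one _).symm
        _ ≤ _ := mul_le_mul_right (vinf_poly_one_le k h6) _
    exact exp_le_exp.mp (h7.trans h1)
  have hne : ∃ z, P z := by
    have h1 : ∀ j, ∃ n : ℤ, ∀ i, vinf k (c.repr (b0 j) i) ≤ exp n := by
      intro j
      have h2 : ∀ i, ∃ n : ℤ, vinf k (c.repr (b0 j) i) ≤ exp n := by
        intro i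
        exact ⟨_, le_exp_log⟩
      choose n hn using h2
      refine ⟨∑ i, |n i|, fun i => (hn i).trans (exp_le_exp.mpr ?_)⟩
      exact (le_abs_self _).trans
        (Finset.single_le_sum (f := fun i => |n i|) (fun i _ => abs_nonneg _) (Finset.mem_univ i))
    choose d hd using h1
    exact ⟨_, b0, d, rfl, hd, rfl⟩
  obtain ⟨s, ⟨b, d, hb, hd, rfl⟩, hmin⟩ := Int.exists_least_of_bdd hbdd hne
  obtain ⟨b, rfl⟩ := exists_basis_of_span b0 b hb
  refine ⟨b, d, hb, hd, ?_⟩
  have hle : vinf k (c.toMatrix b).det ≤ exp (∑ j, d j) :=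
      det_bound _ d (fun i j => hd j i)
  refine le_antisymm hle (not_lt.mp fun hlt => ?_)
  -- the scaled matrix
  have hX : (RatFunc.X : RatFunc k) ≠ 0 := RatFunc.X_ne_zero
  have hC : ∀ i j, c.repr (b j) i * RatFunc.X ^ (-d j) ∈ Rinf k := by
    intro i j
    rw [mem_Rinf, map_mul, vinf_X_zpow]
    calc _ ≤ exp (d j) * exp (-d j) := mul_le_mul_left (hd j i) _
      _ = 1 := by rw [← exp_add]; simp
  let C : Matrix ι ι (Rinf k) := Matrix.of fun i j => ⟨_, hC i j⟩
  have hCmap : (algebraMap (Rinf k) (RatFunc k)).mapMatrix C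
      = c.toMatrix b * Matrix.diagonal (fun j => (RatFunc.X : RatFunc k) ^ (-d j)) := by
    ext i j
    rw [Matrix.mul_diagonal]
    rfl
  have hdetC : vinf k (C.det : RatFunc k) < 1 := by
    have h1 : (C.det : RatFunc k) = (c.toMatrix b).det * ∏ j, (RatFunc.X : RatFunc k) ^ (-d j) := by
      rw [← Matrix.det_diagonal, ← Matrix.det_mul, ← hCmap, ← RingHom.map_det]
      rfl
    rw [h1, map_mul, map_prod]
    have h2 : ∀ s : Finset ι, ∏ j ∈ s, vinf k ((RatFunc.X : RatFunc k) ^ (-d j))
        = exp (-∑ j ∈ s, d j) := by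
      intro s
      induction s using Finset.induction_on with
      | empty => simp
      | insert a s ha ih =>
        rw [Finset.sum_insert ha, Finset.prod_insert ha, neg_add, exp_add, ih, vinf_X_zpow]
    rw [h2]
    calc _ < exp (∑ j, d j) * exp (-∑ j, d j) := mul_lt_mul_of_pos_right hlt (by simp)
      _ = 1 := by rw [← exp_add]; simp
  have hmem : C.det ∈ IsLocalRing.maximalIdeal (Rinf k) := by
    rw [IsLocalRing.mem_maximalIdeal, mem_nonunits_iff]
    intro hu
    obtain ⟨u, hu⟩ := hu
    have h1 : vinf k ((C.det : Rinf k) : RatFunc k) * vinf k ((↑(u⁻¹) : Rinf k) : RatFunc k) = 1 := by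
      rw [← map_mul, ← hu]
      have h2 : ((u : Rinf k) : RatFunc k) * ((↑(u⁻¹) : Rinf k) : RatFunc k) = 1 := by
        have := congrArg (Subtype.val) (u.mul_inv)
        exact this
      rw [h2, map_one]
    have h3 : vinf k ((↑(u⁻¹) : Rinf k) : RatFunc k) ≤ 1 := (↑(u⁻¹) : Rinf k).2
    have h4 : vinf k ((C.det : Rinf k) : RatFunc k) * vinf k ((↑(u⁻¹) : Rinf k) : RatFunc k) < 1 := by
      calc _ ≤ vinf k ((C.det : Rinf k) : RatFunc k) * 1 := mul_le_mul_right h3 _
        _ < 1 := by rwa [mul_one]
    exact absurd h1 h4.ne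
  let κ := IsLocalRing.ResidueField (Rinf k)
  have hdet0 : ((IsLocalRing.residue (Rinf k)).mapMatrix C).det = 0 := by
    rw [← RingHom.map_det]
    exact (IsLocalRing.residue_eq_zero_iff _).mpr hmem
  obtain ⟨w, hw0, hw⟩ := Matrix.exists_mulVec_eq_zero_iff.mpr hdet0
  -- lift w to constants
  have hCmemR : ∀ a : k, RatFunc.C a ∈ Rinf k := fun a => (mem_Rinf k).mpr (vinf_C_le k a)
  have hlift : ∀ x : κ, ∃ a : k, IsLocalRing.residue (Rinf k) ⟨RatFunc.C a, hCmemR a⟩ = x ∧
      (x = 0 → a = 0) := by
    intro x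
    by_cases hx : x = 0
    · refine ⟨0, ?_, fun _ => rfl⟩
      rw [hx, IsLocalRing.residue_eq_zero_iff]
      have : (⟨RatFunc.C 0, hCmemR 0⟩ : Rinf k) = 0 := Subtype.ext (by simp)
      rw [this]
      exact Submodule.zero_mem _
    · obtain ⟨r, rfl⟩ := IsLocalRing.residue_surjective x
      obtain ⟨a, ha⟩ := exists_C_sub k (f := (r : RatFunc k)) r.2
      refine ⟨a, ?_, fun h => absurd h hx⟩
      rw [eq_comm, ← sub_eq_zero, ← map_sub, IsLocalRing.residue_eq_zero_iff]
      have key : ∀ s : Rinf k, vinf k (s : RatFunc k) < 1 → s ∈ IsLocalRing.maximalIdeal (Rinf k) := by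
        intro s hs
        rw [IsLocalRing.mem_maximalIdeal, mem_nonunits_iff]
        rintro ⟨u, hu⟩
        have h1 : vinf k (s : RatFunc k) * vinf k ((↑(u⁻¹) : Rinf k) : RatFunc k) = 1 := by
          rw [← map_mul, ← hu]
          have h2 : ((u : Rinf k) : RatFunc k) * ((↑(u⁻¹) : Rinf k) : RatFunc k) = 1 := by
            have := congrArg (Subtype.val) (u.mul_inv)
            exact this
          rw [h2, map_one]
        have h3 : vinf k ((↑(u⁻¹) : Rinf k) : RatFunc k) ≤ 1 := (↑(u⁻¹) : Rinf k).2
        have h4 : vinf k (s : RatFunc k) * vinf k ((↑(u⁻¹) : Rinf k) : RatFunc k) < 1 := by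
          calc _ ≤ vinf k (s : RatFunc k) * 1 := mul_le_mul_right h3 _
            _ < 1 := by rwa [mul_one]
        exact absurd h1 h4.ne
      apply key
      exact ha
  choose lam hlam hlam0 using hlift
  let a : ι → k := fun j => lam (w j)
  have ha0 : ∃ j, a j ≠ 0 := by
    by_contra hcon
    push Not at hcon
    apply hw0
    funext j
    have h1 := hlam (w j)
    have h2 : lam (w j) = 0 := hcon j
    rw [← h1, Pi.zero_apply, IsLocalRing.residue_eq_zero_iff]
    have : (⟨RatFunc.C (lam (w j)), hCmemR _⟩ : Rinf k) = 0 := Subtype.ext (by simp [h2])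
    rw [this]
    exact Submodule.zero_mem _
  -- the relation
  have hrel : ∀ i, vinf k (∑ j, c.repr (b j) i * RatFunc.X ^ (-d j) * RatFunc.C (a j)) < 1 := by
    intro i
    have h1 := congrFun hw i
    simp only [Matrix.mulVec, dotProduct, RingHom.mapMatrix_apply, Matrix.map_apply,
      Pi.zero_apply] at h1
    have h2 : IsLocalRing.residue (Rinf k) (∑ j, C i j * ⟨RatFunc.C (a j), hCmemR _⟩) = 0 := by
      rw [map_sum, ← h1]
      refine Finset.sum_congr rfl fun j _ => ?_
      rw [map_mul, hlam]
    rw [IsLocalRing.residue_eq_zero_iff, IsLocalRing.mem_maximalIdeal, mem_nonunits_iff] at h2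
    have h3 : ((∑ j, C i j * ⟨RatFunc.C (a j), hCmemR _⟩ : Rinf k) : RatFunc k)
        = ∑ j, c.repr (b j) i * RatFunc.X ^ (-d j) * RatFunc.C (a j) := by
      push_cast
      rfl
    rw [← h3]
    rcases lt_or_eq_of_le ((mem_Rinf k).mp (∑ j, C i j * ⟨RatFunc.C (a j), hCmemR _⟩ : Rinf k).2) with h4 | h4
    · exact h4
    · exfalso
      apply h2
      set S := (∑ j, C i j * ⟨RatFunc.C (a j), hCmemR _⟩ : Rinf k)
      have h5 : vinf k (S : RatFunc k) = 1 := h4
      have h6 : (S : RatFunc k) ≠ 0 := by
        intro h0; rw [h0, map_zero] at h5; exact zero_ne_one h5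
      have h7 : (S : RatFunc k)⁻¹ ∈ Rinf k := by
        rw [mem_Rinf, map_inv₀, h5, inv_one]
      exact IsUnit.of_mul_eq_one ⟨(S : RatFunc k)⁻¹, h7⟩ (Subtype.ext (mul_inv_cancel₀ h6))
  -- the maximal degree among the support
  have hTne : (Finset.univ.filter fun j => a j ≠ 0).Nonempty := by
    obtain ⟨j, hj⟩ := ha0
    exact ⟨j, by simp [hj]⟩
  obtain ⟨j0, hj0, hmax⟩ := Finset.exists_max_image (Finset.univ.filter fun j => a j ≠ 0) d hTne
  simp only [Finset.mem_filter, Finset.mem_univ, true_and] at hj0 hmax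
  let coef : ι → k[X] := fun j => Polynomial.C (a j) * Polynomial.X ^ (d j0 - d j).toNat
  have hcoef : ∀ j, algebraMap k[X] (RatFunc k) (coef j)
      = RatFunc.C (a j) * RatFunc.X ^ (d j0 - d j) := by
    intro j
    by_cases haj : a j = 0
    · simp [coef, haj]
    · have h1 : ((d j0 - d j).toNat : ℤ) = d j0 - d j := Int.toNat_of_nonneg (by
        have := hmax j haj; omega)
      simp only [coef, map_mul, map_pow, RatFunc.algebraMap_C, RatFunc.algebraMap_X]
      conv_rhs => rw [← h1, zpow_natCast]
  let v' : V := ∑ j, coef j • b j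
  let b' : ι → V := Function.update b j0 v'
  let d' : ι → ℤ := Function.update d j0 (d j0 - 1)
  have hcj0 : coef j0 = Polynomial.C (a j0) := by simp [coef]
  have hspan : Submodule.span k[X] (Set.range b') = Submodule.span k[X] (Set.range b) := by
    apply le_antisymm
    · rw [Submodule.span_le]
      rintro _ ⟨j, rfl⟩
      by_cases hj : j = j0
      · subst hj
        simp only [b', Function.update_self, v']
        exact Submodule.sum_mem _ fun i _ => Submodule.smul_mem _ _ (Submodule.subset_span ⟨i, rfl⟩)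
      · simp only [b', Function.update_of_ne hj]
        exact Submodule.subset_span ⟨j, rfl⟩
    · rw [Submodule.span_le]
      have hne : ∀ j, j ≠ j0 → b j ∈ Submodule.span k[X] (Set.range b') := by
        intro j hj
        have : b j = b' j := by simp only [b', Function.update_of_ne hj]
        rw [this]
        exact Submodule.subset_span ⟨j, rfl⟩
      rintro _ ⟨j, rfl⟩
      by_cases hj : j = j0
      · subst hj
        have h1 : v' ∈ Submodule.span k[X] (Set.range b') := by
          have : v' = b' j := by simp only [b', Function.update_self]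
          rw [this]
          exact Submodule.subset_span ⟨j, rfl⟩
        have h2 : v' = coef j • b j + ∑ i ∈ Finset.univ.erase j, coef i • b i := by
          simp only [v']
          exact (Finset.add_sum_erase _ (fun i => coef i • b i) (Finset.mem_univ j)).symm
        have h3 : b j = Polynomial.C (a j)⁻¹ • (v' - ∑ i ∈ Finset.univ.erase j, coef i • b i) := by
          rw [h2, add_sub_cancel_right, hcj0, smul_smul, ← Polynomial.C_mul, inv_mul_cancel₀ hj0,
            Polynomial.C_1, one_smul]
        show b j ∈ _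
        rw [h3]
        refine Submodule.smul_mem _ _ (Submodule.sub_mem _ h1 (Submodule.sum_mem _ fun i hi => ?_))
        exact Submodule.smul_mem _ _ (hne i (Finset.ne_of_mem_erase hi))
      · exact hne j hj
  have hbound : ∀ j i, vinf k (c.repr (b' j) i) ≤ exp (d' j) := by
    intro j i
    by_cases hj : j = j0
    · subst hj
      simp only [b', d', Function.update_self]
      rw [← lt_exp_iff]
      have h1 : c.repr v' i
          = (∑ l, c.repr (b l) i * RatFunc.X ^ (-d l) * RatFunc.C (a l)) * RatFunc.X ^ (d j) := by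
        simp only [v']
        rw [map_sum, Finsupp.finsetSum_apply, Finset.sum_mul]
        refine Finset.sum_congr rfl fun l _ => ?_
        rw [← algebraMap_smul (RatFunc k) (coef l) (b l), map_smul, Finsupp.smul_apply, hcoef,
          smul_eq_mul, sub_eq_add_neg, zpow_add₀ hX]
        ring
      rw [h1, map_mul, vinf_X_zpow]
      calc _ < 1 * exp (d j) := mul_lt_mul_of_pos_right (hrel i) (by simp)
        _ = exp (d j) := one_mul _
    · simp only [b', d', Function.update_of_ne hj]
      exact hd j i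
  have hsum : ∑ j, d' j = ∑ j, d j - 1 := by
    simp only [d']
    rw [Finset.sum_update_of_mem (Finset.mem_univ j0)]
    rw [← Finset.add_sum_erase Finset.univ d (Finset.mem_univ j0), Finset.sdiff_singleton_eq_erase]
    ring
  have := hmin _ ⟨b', d', hspan.trans hb, hbound, rfl⟩
  omega

end BG

end Crest.Agent.R013.RR3_948
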