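import Mathlib
import Crest.Agent.R013.RR3_948

/-!
# R013 / RR4: Dedekind pieces (helper948)

`O` a Dedekind domain with fraction field `K`; `fid D = ∏ v^(-D v)`;
`x ∈ fid D ↔ ∀ v, v(x) ≤ exp (D v)`; `fid (D + v) / fid D ≃ O / v`; trace dual.
-/

set_option autoImplicit false

namespace Crest.Agent.R013.RR4_948

open WithZero Module IsDedekindDomain nonZeroDivisors
open Crest.Agent.R013.RR1_948 Crest.Agent.R013.RR2_948 Crest.Agent.R013.RR3_948

section Dedekind

variable {O : Type*} [CommRing O] [IsDedekindDomain O] (K : Type*) [Field K] [Algebra O K]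
  [IsFractionRing O K]

/-- the fractional ideal of a divisor: functions with poles bounded by `D` -/
noncomputable def fid (D : HeightOneSpectrum O →₀ ℤ) : FractionalIdeal O⁰ K :=
  (-D).prod fun v n => (v.asIdeal : FractionalIdeal O⁰ K) ^ n

theorem count_fid (D : HeightOneSpectrum O →₀ ℤ) (v : HeightOneSpectrum O) :
    FractionalIdeal.count K v (fid K D) = -D v := by
  unfold fid
  rw [FractionalIdeal.count_finsuppProd]
  rfl

theorem fid_ne_zero (D : HeightOneSpectrum O →₀ ℤ) : fid K D ≠ 0 := by
  unfold fid Finsupp.prod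
  refine Finset.prod_ne_zero_iff.mpr fun v _ => zpow_ne_zero _ ?_
  exact FractionalIdeal.coeIdeal_ne_zero.mpr v.ne_bot

theorem le_one_of_count_nonneg {I : FractionalIdeal O⁰ K} (hI : I ≠ 0)
    (h : ∀ v, 0 ≤ FractionalIdeal.count K v I) : I ≤ 1 := by
  rw [← FractionalIdeal.finprod_heightOneSpectrum_factorization' K hI]
  apply finprod_induction (p := fun J : FractionalIdeal O⁰ K => J ≤ 1)
  · exact le_refl _
  · intro x y hx hy
    calc x * y ≤ 1 * 1 := mul_le_mul' hx hy
      _ = 1 := one_mul 1
  · intro v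
    obtain ⟨n, hn⟩ := Int.eq_ofNat_of_zero_le (h v)
    rw [hn, zpow_natCast, ← FractionalIdeal.coeIdeal_pow]
    exact FractionalIdeal.coeIdeal_le_one

theorem le_iff_count {I J : FractionalIdeal O⁰ K} (hI : I ≠ 0) (hJ : J ≠ 0) :
    I ≤ J ↔ ∀ v, FractionalIdeal.count K v J ≤ FractionalIdeal.count K v I := by
  constructor
  · intro h v
    exact FractionalIdeal.count_mono K v hI h
  · intro h
    have h1 : I * J⁻¹ ≤ 1 := by
      refine le_one_of_count_nonneg K (mul_ne_zero hI (inv_ne_zero hJ)) fun v => ?_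
      rw [FractionalIdeal.count_mul K v hI (inv_ne_zero hJ), FractionalIdeal.count_inv]
      have := h v
      omega
    have h2 := mul_le_mul_left h1 J
    rwa [mul_assoc, inv_mul_cancel₀ hJ, mul_one, one_mul] at h2

theorem eq_of_count {I J : FractionalIdeal O⁰ K} (hI : I ≠ 0) (hJ : J ≠ 0)
    (h : ∀ v, FractionalIdeal.count K v I = FractionalIdeal.count K v J) : I = J :=
  le_antisymm ((le_iff_count K hI hJ).mpr fun v => (h v).ge)
    ((le_iff_count K hJ hI).mpr fun v => (h v).le)

theorem valuation_eq_count {x : K} (hx : x ≠ 0) (v : HeightOneSpectrum O) :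
    v.valuation K x = exp (-FractionalIdeal.count K v (FractionalIdeal.spanSingleton O⁰ x)) := by
  classical
  obtain ⟨a, b, hb, rfl⟩ := IsFractionRing.div_surjective (A := O) x
  have hb0 : b ≠ 0 := nonZeroDivisors.ne_zero hb
  have hb1 : algebraMap O K b ≠ 0 := by
    simpa using hb0
  have ha0 : a ≠ 0 := by
    rintro rfl; simp at hx
  have ha1 : algebraMap O K a ≠ 0 := by
    simpa using ha0
  have key : ∀ c : O, c ≠ 0 → v.valuation K (algebraMap O K c)
      = exp (-FractionalIdeal.count K v (FractionalIdeal.spanSingleton O⁰ (algebraMap O K c))) := by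
    intro c hc
    rw [HeightOneSpectrum.valuation_of_algebraMap, HeightOneSpectrum.intValuation_if_neg v hc,
      ← FractionalIdeal.coeIdeal_span_singleton, FractionalIdeal.count_coe]
    simpa using hc
  have h1 : FractionalIdeal.spanSingleton O⁰ (algebraMap O K a / algebraMap O K b)
      = FractionalIdeal.spanSingleton O⁰ (algebraMap O K a) *
        (FractionalIdeal.spanSingleton O⁰ (algebraMap O K b))⁻¹ := by
    rw [FractionalIdeal.spanSingleton_inv, FractionalIdeal.spanSingleton_mul_spanSingleton,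
      div_eq_mul_inv]
  rw [map_div₀, key a ha0, key b hb0, h1, FractionalIdeal.count_mul, FractionalIdeal.count_inv,
    ← exp_sub]
  · congr 1; ring
  · exact FractionalIdeal.spanSingleton_ne_zero_iff.mpr ha1
  · exact inv_ne_zero (FractionalIdeal.spanSingleton_ne_zero_iff.mpr hb1)

theorem mem_fid {D : HeightOneSpectrum O →₀ ℤ} {x : K} :
    x ∈ fid K D ↔ ∀ v : HeightOneSpectrum O, v.valuation K x ≤ exp (D v) := by
  by_cases hx : x = 0
  · subst hx
    simp [(fid K D).zero_mem]
  · have hx' : FractionalIdeal.spanSingleton O⁰ x ≠ 0 :=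
      FractionalIdeal.spanSingleton_ne_zero_iff.mpr hx
    rw [← FractionalIdeal.spanSingleton_le_iff_mem, le_iff_count K hx' (fid_ne_zero K D)]
    refine forall_congr' fun v => ?_
    rw [valuation_eq_count K hx, exp_le_exp, count_fid]
    constructor <;> intro h <;> omega

theorem fid_zero : fid K (0 : HeightOneSpectrum O →₀ ℤ) = 1 := by
  simp [fid]

theorem fid_mono {D D' : HeightOneSpectrum O →₀ ℤ} (h : D ≤ D') : fid K D ≤ fid K D' := by
  rw [le_iff_count K (fid_ne_zero K D) (fid_ne_zero K D')]
  intro v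
  rw [count_fid, count_fid]
  have := h v
  omega

/-- finite support of the divisor of a function -/
theorem finite_valuation_ne_one {x : K} (hx : x ≠ 0) :
    {v : HeightOneSpectrum O | v.valuation K x ≠ 1}.Finite := by
  have h := FractionalIdeal.finite_factors (K := K) (FractionalIdeal.spanSingleton O⁰ x)
  rw [Filter.eventually_cofinite] at h
  refine h.subset ?_
  intro v hv
  simp only [Set.mem_ofPred_eq] at hv ⊢
  intro h0
  apply hv
  rw [valuation_eq_count K hx, h0]
  simp

variable (k : Type*) [Field k] [Algebra k O] [Algebra k K] [IsScalarTower k O K]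

/-- as a `k`-subspace -/
noncomputable def fidS (D : HeightOneSpectrum O →₀ ℤ) : Submodule k K :=
  (fid K D : Submodule O K).restrictScalars k

theorem mem_fidS {D : HeightOneSpectrum O →₀ ℤ} {x : K} :
    x ∈ fidS K k D ↔ ∀ v : HeightOneSpectrum O, v.valuation K x ≤ exp (D v) := by
  rw [← mem_fid]; rfl

theorem fidS_mono {D D' : HeightOneSpectrum O →₀ ℤ} (h : D ≤ D') : fidS K k D ≤ fidS K k D' :=
  fun _ hx => fid_mono K h hx

theorem ri_fidS (D : HeightOneSpectrum O →₀ ℤ) (v : HeightOneSpectrum O) :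
    ri (fidS K k D) (fidS K k (D + Finsupp.single v 1)) = Module.length k (O ⧸ v.asIdeal) := by
  have hle : D ≤ D + Finsupp.single v 1 := by
    intro w
    rw [Finsupp.add_apply]
    have : (0 : ℤ) ≤ (Finsupp.single v 1 : HeightOneSpectrum O →₀ ℤ) w := by
      classical
      rw [Finsupp.single_apply]; split_ifs <;> norm_num
    omega
  have hv0 : (v.asIdeal : FractionalIdeal O⁰ K) ≠ 0 := FractionalIdeal.coeIdeal_ne_zero.mpr v.ne_bot
  have H : fid K (D + Finsupp.single v 1) * (v.asIdeal : FractionalIdeal O⁰ K)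
      = 1 * fid K D := by
    rw [one_mul]
    refine eq_of_count K (mul_ne_zero (fid_ne_zero K _) hv0) (fid_ne_zero K D) fun w => ?_
    classical
    rw [FractionalIdeal.count_mul K w (fid_ne_zero K _) hv0, count_fid, count_fid,
      Finsupp.add_apply, Finsupp.single_apply, FractionalIdeal.count_maximal]
    by_cases hwv : v = w
    · simp [hwv]
    · simp [hwv]
  have e := FractionalIdeal.quotientEquiv (fid K (D + Finsupp.single v 1)) (fid K D) 1
    (v.asIdeal : FractionalIdeal O⁰ K) H (fid_mono K hle) FractionalIdeal.coeIdeal_le_one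
    hv0 (fid_ne_zero K _)
  -- `O / v ≃ 1 / v`
  let f : O →ₗ[O] ((1 : FractionalIdeal O⁰ K) : Submodule O K) :=
    LinearMap.codRestrict _ (Algebra.linearMap O K) (fun a => by
      rw [FractionalIdeal.mem_coe, FractionalIdeal.mem_one_iff]; exact ⟨a, rfl⟩)
  have hf : Function.Surjective f := by
    rintro ⟨x, hx⟩
    rw [FractionalIdeal.mem_coe, FractionalIdeal.mem_one_iff] at hx
    obtain ⟨a, rfl⟩ := hx
    exact ⟨a, rfl⟩
  let P : Submodule O ((1 : FractionalIdeal O⁰ K) : Submodule O K) :=
    (v.asIdeal : FractionalIdeal O⁰ K).coeToSubmodule.comap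
      ((1 : FractionalIdeal O⁰ K) : Submodule O K).subtype
  have hker : LinearMap.ker (P.mkQ.comp f) = v.asIdeal := by
    ext a
    rw [LinearMap.mem_ker, LinearMap.comp_apply, Submodule.mkQ_apply, Submodule.Quotient.mk_eq_zero]
    show algebraMap O K a ∈ (v.asIdeal : FractionalIdeal O⁰ K).coeToSubmodule ↔ _
    rw [FractionalIdeal.mem_coe, FractionalIdeal.mem_coeIdeal]
    constructor
    · rintro ⟨b, hb, hab⟩
      have : b = a := IsFractionRing.injective O K hab
      rwa [← this]
    · intro h; exact ⟨a, h, rfl⟩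
  have e2 : (O ⧸ v.asIdeal) ≃ₗ[O] (_ ⧸ P) :=
    (Submodule.quotEquivOfEq _ _ hker.symm).trans
      ((P.mkQ.comp f).quotKerEquivOfSurjective ((Submodule.mkQ_surjective P).comp hf))
  have e3 := (e.trans e2.symm).restrictScalars k
  exact LinearEquiv.length_eq e3

end Dedekind

end Crest.Agent.R013.RR4_948
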