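import Mathlib
import Crest.Agent.R013.RR4_948

/-!
# R013 / RR5: trace duality and lattices for Dedekind pieces (helper948)
-/

set_option autoImplicit false

namespace Crest.Agent.R013.RR5_948

open WithZero Module IsDedekindDomain nonZeroDivisors
open Crest.Agent.R013.RR1_948 Crest.Agent.R013.RR2_948 Crest.Agent.R013.RR3_948
open Crest.Agent.R013.RR4_948

section Trace

variable (S F K : Type*) {O : Type*} [CommRing S] [IsDomain S] [IsPrincipalIdealRing S] [Field F]
  [Algebra S F] [IsFractionRing S F] [Field K] [Algebra F K] [FiniteDimensional F K]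
  [Algebra.IsSeparable F K] [Algebra S K] [IsScalarTower S F K]
  [CommRing O] [IsDedekindDomain O] [Algebra S O] [Algebra O K] [IsScalarTower S O K]
  [IsIntegralClosure O S K] [IsFractionRing O K]

theorem dual_one_ne_zero : (FractionalIdeal.dual S F (1 : FractionalIdeal O⁰ K)) ≠ 0 :=
  FractionalIdeal.dual_ne_zero S F one_ne_zero

variable (O) in
/-- the different divisor -/
noncomputable def diffD : HeightOneSpectrum O →₀ ℤ :=
  Finsupp.ofSupportFinite
    (fun v => -FractionalIdeal.count K v (FractionalIdeal.dual S F (1 : FractionalIdeal O⁰ K)))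
    (by
      have h := FractionalIdeal.finite_factors (K := K)
        (FractionalIdeal.dual S F (1 : FractionalIdeal O⁰ K))
      rw [Filter.eventually_cofinite] at h
      refine h.subset ?_
      intro v hv
      simpa [Function.mem_support] using hv)

theorem diffD_apply (v : HeightOneSpectrum O) : diffD S F K O v =
    -FractionalIdeal.count K v (FractionalIdeal.dual S F (1 : FractionalIdeal O⁰ K)) := rfl

theorem diffD_nonneg (v : HeightOneSpectrum O) : 0 ≤ diffD S F K O v := by
  rw [diffD_apply]
  have h1 : (1 : FractionalIdeal O⁰ K) ≤ FractionalIdeal.dual S F 1 :=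
    FractionalIdeal.one_le_dual_one S F
  have h2 := FractionalIdeal.count_mono K v one_ne_zero h1
  rw [FractionalIdeal.count_one] at h2
  omega

theorem dual_fid (D : HeightOneSpectrum O →₀ ℤ) :
    FractionalIdeal.dual S F (fid K D) = fid K (diffD S F K O - D) := by
  rw [FractionalIdeal.dual_eq_mul_inv]
  refine eq_of_count K (mul_ne_zero (dual_one_ne_zero S F K) (inv_ne_zero (fid_ne_zero K D)))
    (fid_ne_zero K _) fun v => ?_
  rw [FractionalIdeal.count_mul K v (dual_one_ne_zero S F K) (inv_ne_zero (fid_ne_zero K D)),
    FractionalIdeal.count_inv, count_fid, count_fid, Finsupp.sub_apply, diffD_apply]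
  ring

theorem mem_fid_diff_sub {D : HeightOneSpectrum O →₀ ℤ} {x : K} :
    x ∈ fid K (diffD S F K O - D) ↔
      ∀ y ∈ fid K D, Algebra.trace F K (x * y) ∈ Set.range (algebraMap S F) := by
  rw [← dual_fid, FractionalIdeal.mem_dual (fid_ne_zero K D)]
  refine forall₂_congr fun y _ => ?_
  rw [Algebra.traceForm_apply, RingHom.mem_range]
  rfl

theorem exists_basis_fid (D : HeightOneSpectrum O →₀ ℤ) :
    ∃ b : Basis (Fin (finrank F K)) F K,
      Submodule.span S (Set.range b) = (fid K D : Submodule O K).restrictScalars S := by
  have hfin : Module.Finite S O := IsIntegralClosure.finite S F K O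
  let M : Submodule S K := (fid K D : Submodule O K).restrictScalars S
  have hfin2 : Module.Finite O (fid K D : Submodule O K) := by
    rw [Module.Finite.iff_fg]
    exact FractionalIdeal.fg_of_isNoetherianRing (le_refl _) _
  have hfin3 : Module.Finite S (fid K D : Submodule O K) := Module.Finite.trans O _
  have hM : M.FG := by
    rw [← Module.Finite.iff_fg]
    exact hfin3
  have hspan : Submodule.span F (M : Set K) = ⊤ := by
    rw [eq_top_iff]
    intro z _
    obtain ⟨y, hy0, hy⟩ : ∃ y : K, y ≠ 0 ∧ y ∈ fid K D := by
      by_contra hcon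
      push Not at hcon
      apply fid_ne_zero K D
      rw [FractionalIdeal.eq_zero_iff]
      intro x hx
      by_contra hx0
      exact hcon x hx0 hx
    have : Algebra.IsAlgebraic S K := by
      have : Algebra.IsAlgebraic F K := inferInstance
      exact (IsFractionRing.comap_isAlgebraic_iff (A := S) (K := F) (C := K)).mpr this
    obtain ⟨s, hs0, hs⟩ := (this.isAlgebraic (z / y)).exists_integral_multiple
    obtain ⟨t, ht⟩ := (IsIntegralClosure.isIntegral_iff (A := O) (R := S) (B := K)).mp hs
    have h1 : s • z = t • y := by
      rw [Algebra.smul_def t y, ht, smul_mul_assoc, div_mul_cancel₀ _ hy0]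
    have h2 : s • z ∈ M := by
      rw [h1]
      exact Submodule.smul_mem _ t hy
    have hs1 : algebraMap S F s ≠ 0 := by
      intro h; apply hs0; exact IsFractionRing.injective S F (by rw [h, map_zero])
    have h3 : z = (algebraMap S F s)⁻¹ • (s • z) := by
      rw [← algebraMap_smul F s z, smul_smul, inv_mul_cancel₀ hs1, one_smul]
    rw [h3]
    exact Submodule.smul_mem _ _ (Submodule.subset_span h2)
  have hlat : Submodule.IsLattice F M := ⟨hM, hspan⟩
  have hfree : Module.Free S M := Submodule.IsLattice.free F M
  have hrank : finrank S M = finrank F K := by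
    unfold Module.finrank
    rw [Submodule.IsLattice.rank' F M]
  let b0 : Basis (Fin (finrank F K)) S M := (Module.finBasisOfFinrankEq S M hrank)
  refine ⟨b0.extendOfIsLattice F, ?_⟩
  have : (b0.extendOfIsLattice F : Fin (finrank F K) → K) = fun j => ((b0 j : M) : K) := by
    funext j; simp
  rw [this]
  have h2 : Set.range (fun j => ((b0 j : M) : K)) = M.subtype '' Set.range b0 := by
    rw [← Set.range_comp]; rfl
  rw [h2, ← Submodule.map_span, b0.span_eq, Submodule.map_top, Submodule.range_subtype]

end Trace

end Crest.Agent.R013.RR5_948
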