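import Mathlib
import Crest.Agent.R013.RR5_948

/-!
# R013 / RR6: dimension formulas and duality for pairs of lattices over `P^1` (helper948)
-/

set_option autoImplicit false

namespace Crest.Agent.R013.RR6_948

open Polynomial WithZero Module
open Crest.Agent.R013.RR1_948 Crest.Agent.R013.RR2_948 Crest.Agent.R013.RR3_948

section

variable {k : Type*} [Field k] {ι : Type*} [Fintype ι] [DecidableEq ι]
  {V : Type*} [AddCommGroup V] [Module (RatFunc k) V]

/-- the reduced basis: coordinates version of the second lattice -/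
theorem reduced_iff (b c : Basis ι (RatFunc k) V) (d : ι → ℤ)
    (hd : ∀ j i, vinf k (c.repr (b j) i) ≤ exp (d j))
    (hdet : vinf k (c.toMatrix b).det = exp (∑ j, d j)) (x : V) :
    (∀ i, vinf k (c.repr x i) ≤ 1) ↔ ∀ j, vinf k (b.repr x j) ≤ exp (-d j) := by
  have hmul : (c.toMatrix b).mulVec (b.repr x) = c.repr x := Basis.toMatrix_mulVec_repr b c x
  constructor
  · intro h j
    have hcr : (c.toMatrix b).cramer (c.repr x) = (c.toMatrix b).det • (b.repr x : ι → RatFunc k) := by
      rw [← hmul, Matrix.cramer_eq_adjugate_mulVec, Matrix.mulVec_mulVec, Matrix.adjugate_mul,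
        Matrix.smul_mulVec, Matrix.one_mulVec]
    have h1 := congrFun hcr j
    rw [Matrix.cramer_apply, Pi.smul_apply, smul_eq_mul] at h1
    have h2 : vinf k ((c.toMatrix b).updateCol j (c.repr x)).det
        ≤ exp (∑ l, Function.update d j 0 l) := by
      apply det_bound
      intro i l
      by_cases hl : l = j
      · subst hl
        rw [Matrix.updateCol_self, Function.update_self, exp_zero]
        exact h i
      · rw [Matrix.updateCol_ne hl, Function.update_of_ne hl]
        exact hd l i
    rw [h1, map_mul, hdet] at h2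
    have h3 : ∑ l, Function.update d j 0 l = ∑ l, d l - d j := by
      rw [Finset.sum_update_of_mem (Finset.mem_univ j), Finset.sdiff_singleton_eq_erase,
        ← Finset.add_sum_erase Finset.univ d (Finset.mem_univ j)]
      ring
    rw [h3, sub_eq_add_neg, exp_add] at h2
    exact (mul_le_mul_iff_right₀ (by simp)).mp h2
  · intro h i
    rw [← hmul]
    simp only [Matrix.mulVec, dotProduct]
    refine Valuation.map_sum_le _ fun j _ => ?_
    rw [map_mul]
    calc _ ≤ exp (d j) * exp (-d j) := mul_le_mul' (hd j i) (h j)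
      _ = 1 := by rw [← exp_add]; simp

variable [Module k V] [IsScalarTower k (RatFunc k) V]

/-- coordinates polynomial -/
noncomputable def polyL (b : Basis ι (RatFunc k) V) : Submodule k V :=
  (Submodule.pi Set.univ fun _ : ι => polyS k).comap
    (b.equivFun.restrictScalars k : V →ₗ[k] (ι → RatFunc k))

/-- coordinates of bounded degree -/
noncomputable def infL (b : Basis ι (RatFunc k) V) (d : ι → ℤ) : Submodule k V :=
  (Submodule.pi Set.univ fun j : ι => infS k (d j)).comap
    (b.equivFun.restrictScalars k : V →ₗ[k] (ι → RatFunc k))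

omit [DecidableEq ι] in
theorem mem_polyL {b : Basis ι (RatFunc k) V} {x : V} :
    x ∈ polyL b ↔ ∀ j, b.repr x j ∈ polyS k := by
  simp [polyL, Submodule.mem_pi]

omit [DecidableEq ι] in
theorem mem_infL {b : Basis ι (RatFunc k) V} {d : ι → ℤ} {x : V} :
    x ∈ infL b d ↔ ∀ j, vinf k (b.repr x j) ≤ exp (d j) := by
  simp [infL, Submodule.mem_pi, mem_infS]

theorem h0_std (b : Basis ι (RatFunc k) V) (d : ι → ℤ) :
    h0 (polyL b) (infL b d) = ((∑ j, (d j + 1).toNat : ℕ) : ℕ∞) := by
  rw [← h0_map (b.equivFun.restrictScalars k)]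
  unfold polyL infL
  rw [Submodule.map_comap_eq_of_surjective (LinearEquiv.surjective _),
    Submodule.map_comap_eq_of_surjective (LinearEquiv.surjective _), h0_pi]
  push_cast
  exact Finset.sum_congr rfl fun j _ => h0_infS k (d j)

theorem h1_std (b : Basis ι (RatFunc k) V) (d : ι → ℤ) :
    h1 (polyL b) (infL b d) = ((∑ j, (-1 - d j).toNat : ℕ) : ℕ∞) := by
  rw [← h1_map (b.equivFun.restrictScalars k)]
  unfold polyL infL
  rw [Submodule.map_comap_eq_of_surjective (LinearEquiv.surjective _),
    Submodule.map_comap_eq_of_surjective (LinearEquiv.surjective _), h1_pi]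
  push_cast
  exact Finset.sum_congr rfl fun j _ => h1_infS k (d j)

/-- Birkhoff-Grothendieck: a pair of lattices has a common reduced basis -/
theorem exists_common_basis [Module k[X] V] [IsScalarTower k[X] (RatFunc k) V]
    (b0 c : Basis ι (RatFunc k) V) :
    ∃ (b : Basis ι (RatFunc k) V) (d : ι → ℤ),
      (∀ x : V, (∀ j, b0.repr x j ∈ polyS k) ↔ ∀ j, b.repr x j ∈ polyS k) ∧
      (∀ x : V, (∀ i, vinf k (c.repr x i) ≤ 1) ↔ ∀ j, vinf k (b.repr x j) ≤ exp (d j)) := by
  obtain ⟨b, d, hb, hd, hdet⟩ := exists_reduced b0 c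
  refine ⟨b, fun j => -d j, fun x => ?_, fun x => reduced_iff b c d hd hdet x⟩
  simp only [mem_polyS]
  rw [← b0.mem_span_iff_repr_mem k[X], ← b.mem_span_iff_repr_mem k[X], hb]

end

section Dual

variable {k : Type*} [Field k] {K : Type*} [Field K] [Algebra k K] [Algebra (RatFunc k) K]
  [IsScalarTower k (RatFunc k) K] [FiniteDimensional (RatFunc k) K]
  [Algebra.IsSeparable (RatFunc k) K]

/-- the dual of a `k`-subspace at the finite places -/
noncomputable def dualP (M : Submodule k K) : Submodule k K where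
  carrier := {y | ∀ x ∈ M, Algebra.trace (RatFunc k) K (y * x) ∈ polyS k}
  add_mem' {a b} ha hb := by
    simp only [Set.mem_ofPred_eq] at ha hb ⊢
    intro x hx
    rw [add_mul, map_add]
    exact add_mem (ha x hx) (hb x hx)
  zero_mem' := by simp
  smul_mem' c y hy := by
    simp only [Set.mem_ofPred_eq] at hy ⊢
    intro x hx
    rw [smul_mul_assoc, LinearMap.map_smul_of_tower]
    exact Submodule.smul_mem _ _ (hy x hx)

/-- the dual of a `k`-subspace at infinity (with the twist by `dX`) -/
noncomputable def dualI (N : Submodule k K) : Submodule k K where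
  carrier := {y | ∀ x ∈ N, Algebra.trace (RatFunc k) K (y * x) ∈ infS k (-2)}
  add_mem' {a b} ha hb := by
    simp only [Set.mem_ofPred_eq] at ha hb ⊢
    intro x hx
    rw [add_mul, map_add]
    exact add_mem (ha x hx) (hb x hx)
  zero_mem' := by simp
  smul_mem' c y hy := by
    simp only [Set.mem_ofPred_eq] at hy ⊢
    intro x hx
    rw [smul_mul_assoc, LinearMap.map_smul_of_tower]
    exact Submodule.smul_mem _ _ (hy x hx)

omit [FiniteDimensional (RatFunc k) K] [Algebra.IsSeparable (RatFunc k) K] in
theorem mem_dualP {M : Submodule k K} {y : K} :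
    y ∈ dualP M ↔ ∀ x ∈ M, Algebra.trace (RatFunc k) K (y * x) ∈ polyS k := by
  rw [← SetLike.mem_coe]; simp [dualP]

omit [FiniteDimensional (RatFunc k) K] [Algebra.IsSeparable (RatFunc k) K] in
theorem mem_dualI {N : Submodule k K} {y : K} :
    y ∈ dualI N ↔ ∀ x ∈ N, Algebra.trace (RatFunc k) K (y * x) ∈ infS k (-2) := by
  rw [← SetLike.mem_coe]; simp [dualI]

theorem polyS_mul {f g : RatFunc k} (hf : f ∈ polyS k) (hg : g ∈ polyS k) : f * g ∈ polyS k := by
  rw [mem_polyS] at *
  obtain ⟨p, rfl⟩ := hf
  obtain ⟨q, rfl⟩ := hg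
  exact ⟨p * q, map_mul _ _ _⟩

theorem one_mem_polyS : (1 : RatFunc k) ∈ polyS k := by
  rw [mem_polyS]; exact ⟨1, map_one _⟩

variable {ι : Type*} [Fintype ι] [DecidableEq ι]

theorem dualP_polyL (b : Basis ι (RatFunc k) K) :
    dualP (polyL b) = polyL ((Algebra.traceForm (RatFunc k) K).dualBasis
      (traceForm_nondegenerate (RatFunc k) K) b) := by
  ext y
  rw [mem_dualP, mem_polyL]
  constructor
  · intro h j
    rw [LinearMap.BilinForm.dualBasis_repr_apply, Algebra.traceForm_apply]
    apply h
    rw [mem_polyL]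
    intro i
    rw [b.repr_self, Finsupp.single_apply]
    split_ifs
    · exact one_mem_polyS
    · exact Submodule.zero_mem _
  · intro h x hx
    rw [mem_polyL] at hx
    have h1 : Algebra.trace (RatFunc k) K (y * x)
        = ∑ j, b.repr x j * Algebra.trace (RatFunc k) K (y * b j) := by
      conv_lhs => rw [← b.sum_repr x]
      rw [Finset.mul_sum, map_sum]
      refine Finset.sum_congr rfl fun j _ => ?_
      rw [mul_smul_comm, map_smul, smul_eq_mul]
    rw [h1]
    refine Submodule.sum_mem _ fun j _ => polyS_mul (hx j) ?_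
    have := h j
    rwa [LinearMap.BilinForm.dualBasis_repr_apply, Algebra.traceForm_apply] at this

theorem dualI_infL (b : Basis ι (RatFunc k) K) (d : ι → ℤ) :
    dualI (infL b d) = infL ((Algebra.traceForm (RatFunc k) K).dualBasis
      (traceForm_nondegenerate (RatFunc k) K) b) (fun j => -2 - d j) := by
  ext y
  rw [mem_dualI, mem_infL]
  constructor
  · intro h j
    rw [LinearMap.BilinForm.dualBasis_repr_apply, Algebra.traceForm_apply]
    have h1 : (RatFunc.X ^ (d j) : RatFunc k) • b j ∈ infL b d := by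
      rw [mem_infL]
      intro i
      rw [map_smul, Finsupp.smul_apply, b.repr_self, Finsupp.single_apply]
      split_ifs with hij
      · subst hij
        rw [smul_eq_mul, mul_one, vinf_X_zpow]
      · simp
    have h2 := (mem_infS k).mp (h _ h1)
    rw [mul_smul_comm, map_smul, smul_eq_mul, map_mul, vinf_X_zpow] at h2
    have h3 : exp (-2 : ℤ) = exp (d j) * exp (-2 - d j) := by rw [← exp_add]; congr 1; ring
    rw [h3] at h2
    exact (mul_le_mul_iff_right₀ (by simp)).mp h2
  · intro h x hx
    rw [mem_infL] at hx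
    have h1 : Algebra.trace (RatFunc k) K (y * x)
        = ∑ j, b.repr x j * Algebra.trace (RatFunc k) K (y * b j) := by
      conv_lhs => rw [← b.sum_repr x]
      rw [Finset.mul_sum, map_sum]
      refine Finset.sum_congr rfl fun j _ => ?_
      rw [mul_smul_comm, map_smul, smul_eq_mul]
    rw [h1, mem_infS]
    refine Valuation.map_sum_le _ fun j _ => ?_
    have h2 := h j
    rw [LinearMap.BilinForm.dualBasis_repr_apply, Algebra.traceForm_apply] at h2
    rw [map_mul]
    calc _ ≤ exp (d j) * exp (-2 - d j) := mul_le_mul' (hx j) h2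
      _ = exp (-2) := by rw [← exp_add]; congr 1; ring

/-- **Duality** for pairs of lattices. -/
theorem duality (b0 c : Basis ι (RatFunc k) K) (M N : Submodule k K)
    (hM : ∀ x, x ∈ M ↔ ∀ j, b0.repr x j ∈ polyS k)
    (hN : ∀ x, x ∈ N ↔ ∀ j, vinf k (c.repr x j) ≤ 1) :
    (∃ n : ℕ, h0 M N = n) ∧ (∃ n : ℕ, h1 M N = n) ∧
    h1 M N = h0 (dualP M) (dualI N) ∧ h0 M N = h1 (dualP M) (dualI N) := by
  letI : Algebra k[X] K := ((algebraMap (RatFunc k) K).comp (algebraMap k[X] (RatFunc k))).toAlgebra
  haveI : IsScalarTower k[X] (RatFunc k) K := IsScalarTower.of_algebraMap_eq fun x => rfl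
  obtain ⟨b, d, hb, hc⟩ := exists_common_basis b0 c
  have hM' : M = polyL b := by
    ext x; rw [hM, mem_polyL, hb]
  have hN' : N = infL b d := by
    ext x; rw [hN, mem_infL, hc]
  subst hM' hN'
  refine ⟨⟨_, h0_std b d⟩, ⟨_, h1_std b d⟩, ?_, ?_⟩
  · rw [dualP_polyL, dualI_infL, h0_std, h1_std]
    congr 1
    refine Finset.sum_congr rfl fun j _ => ?_
    congr 1; ring
  · rw [dualP_polyL, dualI_infL, h0_std, h1_std]
    congr 1
    refine Finset.sum_congr rfl fun j _ => ?_
    congr 1; ring

end Dual

end Crest.Agent.R013.RR6_948
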