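import Mathlib
import Crest.Agent.R013.RR6_948

/-!
# R013 / RR7: places of a function field (helper948)

`Pl k K`: normalised discrete valuations `v : K → ℤᵐ⁰` trivial on `k`, surjective.
-/

set_option autoImplicit false

namespace Crest.Agent.R013.RR7_948

open Polynomial WithZero Module IsDedekindDomain nonZeroDivisors
open Crest.Agent.R013.RR1_948 Crest.Agent.R013.RR2_948 Crest.Agent.R013.RR3_948
open Crest.Agent.R013.RR4_948 Crest.Agent.R013.RR5_948 Crest.Agent.R013.RR6_948

/-- A place of `K/k`: a normalised discrete valuation of `K` trivial on `k`. -/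
@[ext] structure Pl (k K : Type*) [Field k] [Field K] [Algebra k K] where
  /-- the normalised valuation -/
  v : Valuation K ℤᵐ⁰
  const : ∀ c : k, c ≠ 0 → v (algebraMap k K c) = 1
  surj : Function.Surjective v

section General

/-- two equivalent surjective valuations to `ℤᵐ⁰` are equal -/
theorem eq_of_isEquiv_surj {K : Type*} [Field K] {v w : Valuation K ℤᵐ⁰} (h : v.IsEquiv w)
    (hv : Function.Surjective v) (hw : Function.Surjective w) : v = w := by
  obtain ⟨π, hπ⟩ := hv (exp (-1))
  obtain ⟨π', hπ'⟩ := hw (exp (-1))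
  have hπ0 : π ≠ 0 := by
    rintro rfl; rw [map_zero] at hπ; exact exp_ne_zero hπ.symm
  have hone : ∀ x, v x = 1 ↔ w x = 1 := fun x => h.eq_one_iff_eq_one
  have key : ∀ x : K, x ≠ 0 → w x = w π ^ (-log (v x)) := by
    intro x hx
    have hvx : v x = exp (log (v x)) := (exp_log ((Valuation.ne_zero_iff v).mpr hx)).symm
    have h1 : v (x * π ^ (log (v x))) = 1 := by
      rw [map_mul, map_zpow₀, hπ, ← exp_zsmul, smul_eq_mul, mul_neg_one]
      conv_lhs => rw [hvx]
      rw [log_exp, ← exp_add]; simp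
    rw [hone, map_mul, map_zpow₀] at h1
    rw [zpow_neg]
    exact eq_inv_of_mul_eq_one_left h1
  have hwπ : w π ≠ 0 := (Valuation.ne_zero_iff w).mpr hπ0
  obtain ⟨m, hm⟩ : ∃ m : ℤ, w π = exp m := ⟨log (w π), (exp_log hwπ).symm⟩
  have hm0 : m < 0 := by
    have h1 : v π < 1 := by rw [hπ, ← exp_zero, exp_lt_exp]; norm_num
    have h2 : w π < 1 := (h.lt_one_iff_lt_one).mp h1
    rwa [hm, ← exp_zero, exp_lt_exp] at h2
  have hπ'0 : π' ≠ 0 := by
    rintro rfl; rw [map_zero] at hπ'; exact exp_ne_zero hπ'.symm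
  have h3 := key π' hπ'0
  rw [hπ', hm, ← exp_zsmul, exp_inj, smul_eq_mul] at h3
  have hm1 : m = -1 := by
    have h4 : m ∣ -1 := ⟨-log (v π'), by rw [h3]; ring⟩
    have h5 : m ∣ 1 := (dvd_neg).mp h4
    have h6 := Int.isUnit_iff.mp (isUnit_of_dvd_one h5)
    omega
  ext x
  by_cases hx : x = 0
  · simp [hx]
  · rw [key x hx, hm, hm1, ← exp_zsmul, smul_eq_mul, neg_mul_neg, mul_one,
      exp_log ((Valuation.ne_zero_iff v).mpr hx)]

variable {A : Type*} [CommRing A] [IsDedekindDomain A] {K : Type*} [Field K] [Algebra A K]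
  [IsFractionRing A K]

theorem exists_heightOne_isEquiv {Γ : Type*} [LinearOrderedCommGroupWithZero Γ]
    (v : Valuation K Γ) (hA : ∀ a : A, v (algebraMap A K a) ≤ 1)
    (hnt : ∃ x : K, v x ≠ 0 ∧ v x ≠ 1) :
    ∃ w : HeightOneSpectrum A, (w.valuation K).IsEquiv v := by
  let I : Ideal A :=
    { carrier := {a | v (algebraMap A K a) < 1}
      add_mem' := by
        intro a b ha hb
        simp only [Set.mem_ofPred_eq] at ha hb ⊢
        rw [map_add]
        exact lt_of_le_of_lt (Valuation.map_add _ _ _) (max_lt ha hb)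
      zero_mem' := by simp
      smul_mem' := by
        intro c a ha
        simp only [Set.mem_ofPred_eq] at ha ⊢
        rw [smul_eq_mul, map_mul, map_mul]
        calc _ ≤ 1 * v (algebraMap A K a) := mul_le_mul_left (hA c) _
          _ < 1 := by rwa [one_mul] }
  have hI : ∀ a, a ∈ I ↔ v (algebraMap A K a) < 1 := by
    intro a
    rw [← SetLike.mem_coe]; simp [I]
  have hprime : I.IsPrime := by
    refine ⟨?_, ?_⟩
    · intro h
      have h1 : (1 : A) ∈ I := by rw [h]; trivial
      rw [hI, map_one, map_one] at h1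
      exact lt_irrefl _ h1
    · intro a b hab
      rw [hI, map_mul, map_mul] at hab
      by_contra hcon
      push Not at hcon
      rw [hI, hI, not_lt, not_lt] at hcon
      have h1 := le_antisymm (hA a) hcon.1
      have h2 := le_antisymm (hA b) hcon.2
      rw [h1, h2, mul_one] at hab
      exact lt_irrefl _ hab
  have hne : I ≠ ⊥ := by
    intro h
    obtain ⟨x, hx0, hx1⟩ := hnt
    have hA1 : ∀ a : A, a ≠ 0 → v (algebraMap A K a) = 1 := by
      intro a ha
      refine le_antisymm (hA a) (not_lt.mp fun hlt => ha ?_)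
      have : a ∈ I := (hI a).mpr hlt
      rw [h] at this
      exact this
    obtain ⟨a, b, hb, rfl⟩ := IsFractionRing.div_surjective (A := A) x
    have ha : a ≠ 0 := by rintro rfl; simp at hx0
    apply hx1
    rw [map_div₀, hA1 a ha, hA1 b (nonZeroDivisors.ne_zero hb), div_one]
  refine ⟨⟨I, hprime, hne⟩, ?_⟩
  set w : HeightOneSpectrum A := ⟨I, hprime, hne⟩
  have hw1 : ∀ x : K, w.valuation K x ≤ 1 → v x ≤ 1 := by
    intro x hx
    obtain ⟨n, d, hnd⟩ := w.exists_primeCompl_mul_eq_of_integer x hx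
    have hd : v (algebraMap A K (d : A)) = 1 := by
      refine le_antisymm (hA _) (not_lt.mp fun hlt => d.2 ((hI _).mpr hlt))
    have h1 := congrArg v hnd
    rw [map_mul, hd, mul_one] at h1
    rw [h1]
    exact hA n
  refine Valuation.isEquiv_of_val_le_one fun {x} => ⟨hw1 x, fun hx => ?_⟩
  -- suppose `w x > 1` but `v x ≤ 1`
  by_contra hcon
  rw [not_le] at hcon
  have hx0 : x ≠ 0 := by rintro rfl; simp at hcon
  obtain ⟨π, hπ⟩ := w.valuation_exists_uniformizer K
  obtain ⟨y, hy0, hy1⟩ := hnt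
  have hy0' : y ≠ 0 := by rintro rfl; simp at hy0
  -- every element has `v ≤ 1`
  have hall : ∀ z : K, v z ≤ 1 := by
    intro z
    by_cases hz : z = 0
    · simp [hz]
    · obtain ⟨n, hn⟩ : ∃ n : ℕ, w.valuation K z ≤ (w.valuation K x) ^ n := by
        obtain ⟨a, ha⟩ : ∃ a : ℤ, w.valuation K z = exp a :=
          ⟨_, (exp_log ((Valuation.ne_zero_iff _).mpr hz)).symm⟩
        obtain ⟨b, hb⟩ : ∃ b : ℤ, w.valuation K x = exp b :=
          ⟨_, (exp_log ((Valuation.ne_zero_iff _).mpr hx0)).symm⟩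
        rw [hb, ← exp_zero, exp_lt_exp] at hcon
        refine ⟨a.toNat, ?_⟩
        rw [ha, hb, ← exp_nsmul, exp_le_exp, nsmul_eq_mul]
        have h1 : a ≤ a.toNat := Int.self_le_toNat a
        nlinarith [Int.natCast_nonneg a.toNat]
      have h1 : w.valuation K (z / x ^ n) ≤ 1 := by
        rw [map_div₀, map_pow]
        exact div_le_one_of_le₀ hn zero_le
      have h2 := hw1 _ h1
      have h3 : z = z / x ^ n * x ^ n := by
        rw [div_mul_cancel₀]; exact pow_ne_zero _ hx0
      rw [h3, map_mul, map_pow]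
      exact mul_le_one' h2 (pow_le_one' hx n)
  have h1 := hall y
  have h2 := hall y⁻¹
  rw [map_inv₀] at h2
  apply hy1
  refine le_antisymm h1 ?_
  have h3 : 0 < v y := by
    rw [Valuation.pos_iff]; exact hy0'
  exact (inv_le_one₀ h3).mp h2

theorem exists_heightOne_eq (v : Valuation K ℤᵐ⁰) (hA : ∀ a : A, v (algebraMap A K a) ≤ 1)
    (hsurj : Function.Surjective v) : ∃ w : HeightOneSpectrum A, w.valuation K = v := by
  obtain ⟨x, hx⟩ := hsurj (exp 1)
  obtain ⟨w, hw⟩ := exists_heightOne_isEquiv (A := A) v hA ⟨x, by rw [hx]; exact exp_ne_zero, by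
    rw [hx, ← exp_zero]; intro h; rw [exp_inj] at h; norm_num at h⟩
  exact ⟨w, eq_of_isEquiv_surj hw (w.valuation_surjective K) hsurj⟩

theorem heightOne_injective {w w' : HeightOneSpectrum A} (h : w.valuation K = w'.valuation K) :
    w = w' := by
  apply HeightOneSpectrum.eq_of_valuation_isEquiv_valuation (K := K)
  rw [h]

end General

end Crest.Agent.R013.RR7_948
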