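import Mathlib
import Crest.Agent.R013.RR7_948

/-!
# R013 / RR8: the two charts of the places of a function field, divisors (helper948)
-/

set_option autoImplicit false
set_option linter.unusedSectionVars false

namespace Crest.Agent.R013.RR8_948

open Polynomial WithZero Module IsDedekindDomain nonZeroDivisors
open Crest.Agent.R013.RR1_948 Crest.Agent.R013.RR2_948 Crest.Agent.R013.RR3_948
open Crest.Agent.R013.RR4_948 Crest.Agent.R013.RR5_948 Crest.Agent.R013.RR6_948
open Crest.Agent.R013.RR7_948

section Chart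

variable {k : Type*} [Field k] {K : Type*} [Field K] [Algebra k K]
  {A : Type*} [CommRing A] [IsDedekindDomain A] [Algebra k A] [Algebra A K] [IsScalarTower k A K]
  [IsFractionRing A K]

/-- the place of a maximal ideal of a chart -/
noncomputable def ofH (w : HeightOneSpectrum A) : Pl k K where
  v := w.valuation K
  const := by
    intro c hc
    have key : ∀ c : k, w.valuation K (algebraMap k K c) ≤ 1 := by
      intro c
      rw [IsScalarTower.algebraMap_apply k A K]
      exact w.valuation_le_one _
    refine le_antisymm (key c) ?_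
    have h1 := key c⁻¹
    rw [map_inv₀, map_inv₀] at h1
    have h2 : 0 < w.valuation K (algebraMap k K c) := by
      rw [Valuation.pos_iff]; simpa using hc
    exact (inv_le_one₀ h2).mp h1
  surj := w.valuation_surjective K

theorem ofH_v (w : HeightOneSpectrum A) : (ofH w : Pl k K).v = w.valuation K := rfl

theorem ofH_injective : Function.Injective (ofH : HeightOneSpectrum A → Pl k K) := by
  intro w w' h
  apply heightOne_injective (K := K)
  exact congrArg Pl.v h

theorem exists_ofH {P : Pl k K} (h : ∀ a : A, P.v (algebraMap A K a) ≤ 1) :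
    ∃ w : HeightOneSpectrum A, ofH w = P := by
  obtain ⟨w, hw⟩ := exists_heightOne_eq (A := A) P.v h P.surj
  exact ⟨w, Pl.ext hw⟩

/-- the ball `{v ≤ exp n}` -/
noncomputable def ball (P : Pl k K) (n : ℤ) : Submodule k K where
  carrier := {f | P.v f ≤ exp n}
  add_mem' {a b} ha hb := by
    simp only [Set.mem_ofPred_eq] at ha hb ⊢
    exact (Valuation.map_add _ _ _).trans (max_le ha hb)
  zero_mem' := by simp
  smul_mem' c x hx := by
    simp only [Set.mem_ofPred_eq] at hx ⊢
    rw [Algebra.smul_def, map_mul]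
    have h : P.v (algebraMap k K c) ≤ 1 := by
      by_cases hc : c = 0
      · simp [hc]
      · rw [P.const c hc]
    calc _ ≤ 1 * exp n := mul_le_mul' h hx
      _ = exp n := one_mul _

theorem mem_ball {P : Pl k K} {n : ℤ} {f : K} : f ∈ ball P n ↔ P.v f ≤ exp n := by
  rw [← SetLike.mem_coe]; simp [ball]

/-- length of the residue field, in `ℕ∞` -/
noncomputable def degE (P : Pl k K) : ℕ∞ := ri (ball P (-1)) (ball P 0)

/-- the degree of a place -/
noncomputable def degP (P : Pl k K) : ℕ := (degE P).toNat

theorem degE_ofH (w : HeightOneSpectrum A) :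
    degE (ofH w : Pl k K) = Module.length k (A ⧸ w.asIdeal) := by
  unfold degE ri
  symm
  let f : A →ₗ[k] ball (ofH w : Pl k K) 0 :=
    LinearMap.codRestrict _ (IsScalarTower.toAlgHom k A K).toLinearMap (fun a => by
      rw [mem_ball, exp_zero]
      exact w.valuation_le_one a)
  let g := ((ball (ofH w : Pl k K) (-1)).submoduleOf (ball (ofH w : Pl k K) 0)).mkQ.comp f
  have hg : Function.Surjective g := by
    intro y
    obtain ⟨⟨y, hy⟩, rfl⟩ := Submodule.Quotient.mk_surjective _ y
    rw [mem_ball, exp_zero] at hy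
    obtain ⟨a, ha⟩ := w.exists_valuation_sub_lt_of_integer (K := K) hy 1
    refine ⟨a, ?_⟩
    simp only [g, LinearMap.comp_apply, Submodule.mkQ_apply]
    rw [Submodule.Quotient.eq, Submodule.submoduleOf, Submodule.mem_comap, mem_ball,
      ← lt_one_iff]
    exact ha
  have hker : LinearMap.ker g = (w.asIdeal).restrictScalars k := by
    ext a
    rw [LinearMap.mem_ker]
    simp only [g, LinearMap.comp_apply, Submodule.mkQ_apply]
    rw [Submodule.Quotient.mk_eq_zero, Submodule.submoduleOf, Submodule.mem_comap, mem_ball,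
      ← lt_one_iff, Submodule.restrictScalars_mem]
    exact w.valuation_lt_one_iff_mem a
  have e1 := g.quotKerEquivOfSurjective hg
  have e2 : (A ⧸ w.asIdeal) ≃ₗ[k] (A ⧸ LinearMap.ker g) := by
    rw [hker]
    exact LinearEquiv.refl k _
  exact LinearEquiv.length_eq (e2.trans e1)

theorem degE_pos (P : Pl k K) : degE P ≠ 0 := by
  unfold degE ri
  rw [ne_eq, Module.length_eq_zero_iff, Submodule.Quotient.subsingleton_iff]
  intro h
  have h1 : (⟨1, by rw [mem_ball]; simp⟩ : ball P 0) ∈ (ball P (-1)).submoduleOf (ball P 0) := by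
    rw [h]; trivial
  rw [Submodule.submoduleOf, Submodule.mem_comap, mem_ball, ← lt_one_iff] at h1
  simp at h1

end Chart

section Bounded

variable {k : Type*} [Field k] {K : Type*} [Field K] {Γ : Type*}
  [LinearOrderedCommGroupWithZero Γ]

theorem le_one_of_integral {S : Type*} [CommRing S] [Algebra S K] (v : Valuation K Γ)
    (hS : ∀ s : S, v (algebraMap S K s) ≤ 1) {a : K} (ha : IsIntegral S a) : v a ≤ 1 := by
  obtain ⟨p, hp, hpa⟩ := ha
  let φ : S →+* v.integer := (algebraMap S K).codRestrict v.integer hS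
  have h1 : IsIntegral v.integer a := by
    refine ⟨p.map φ, hp.map φ, ?_⟩
    rw [Polynomial.eval₂_map]
    exact hpa
  exact (Valuation.integer.integers v).mem_of_integral h1

theorem le_one_poly [Algebra k[X] K] (v : Valuation K Γ)
    (hk : ∀ c : k, v (algebraMap k[X] K (Polynomial.C c)) ≤ 1)
    (hx : v (algebraMap k[X] K Polynomial.X) ≤ 1) (p : k[X]) :
    v (algebraMap k[X] K p) ≤ 1 := by
  induction p using Polynomial.induction_on' with
  | add p q hp hq =>
    rw [map_add]
    exact (Valuation.map_add _ _ _).trans (max_le hp hq)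
  | monomial n c =>
    rw [← Polynomial.C_mul_X_pow_eq_monomial, map_mul, map_mul, map_pow, map_pow]
    exact mul_le_one' (hk c) (pow_le_one' hx n)

theorem isEquiv_vinf (v : Valuation (RatFunc k) Γ)
    (hk : ∀ c : k, c ≠ 0 → v (algebraMap k (RatFunc k) c) = 1) (hx : 1 < v RatFunc.X) :
    v.IsEquiv (vinf k) := by
  classical
  have : v.IsTrivialOn k := ⟨hk⟩
  exact RatFunc.valuation_isEquiv_inftyValuation_of_one_lt_valuation_X hx

end Bounded

section Global

variable {k : Type*} [Field k] {K : Type*} [Field K] [Algebra k K] [Algebra (RatFunc k) K]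
  [IsScalarTower k (RatFunc k) K]
  {A₀ : Type*} [CommRing A₀] [IsDedekindDomain A₀] [Algebra k A₀] [Algebra A₀ K]
  [IsScalarTower k A₀ K] [IsFractionRing A₀ K]
  {A₁ : Type*} [CommRing A₁] [IsDedekindDomain A₁] [Algebra k A₁] [Algebra A₁ K]
  [IsScalarTower k A₁ K] [IsFractionRing A₁ K]

variable (k K) in
/-- the function `x` in `K` -/
noncomputable def xK : K := algebraMap (RatFunc k) K RatFunc.X

section chart0

variable [Algebra k[X] K] [IsScalarTower k[X] (RatFunc k) K] [Algebra k[X] A₀]
  [IsScalarTower k[X] A₀ K] [IsIntegralClosure A₀ k[X] K]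

omit [Algebra k K] [IsScalarTower k (RatFunc k) K] in
theorem xK_eq_poly : xK k K = algebraMap k[X] K Polynomial.X := by
  rw [IsScalarTower.algebraMap_apply k[X] (RatFunc k) K, RatFunc.algebraMap_X]
  rfl

theorem exists_ofH₀ (P : Pl k K) (h : P.v (xK k K) ≤ 1) :
    ∃ w : HeightOneSpectrum A₀, ofH w = P := by
  apply exists_ofH
  intro a
  apply le_one_of_integral (S := k[X]) P.v
  · apply le_one_poly
    · intro c
      have h1 : algebraMap k[X] K (Polynomial.C c) = algebraMap k K c := by
        rw [IsScalarTower.algebraMap_apply k[X] (RatFunc k) K, RatFunc.algebraMap_C,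
          ← algebraMap_eq_C, ← IsScalarTower.algebraMap_apply]
      rw [h1]
      by_cases hc : c = 0
      · simp [hc]
      · rw [P.const c hc]
    · rw [← xK_eq_poly]
      exact h
  · exact (IsIntegralClosure.isIntegral_iff (A := A₀)).mpr ⟨a, rfl⟩

theorem ofH₀_le (w : HeightOneSpectrum A₀) : (ofH w : Pl k K).v (xK k K) ≤ 1 := by
  rw [xK_eq_poly, IsScalarTower.algebraMap_apply k[X] A₀ K]
  exact w.valuation_le_one _

end chart0

section chart1

variable [FiniteDimensional (RatFunc k) K] [Algebra (Rinf k) A₁] [IsScalarTower (Rinf k) A₁ K]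
  [IsIntegralClosure A₁ (Rinf k) K]

omit [FiniteDimensional (RatFunc k) K] in
theorem exists_ofH₁ (P : Pl k K) (h : 1 < P.v (xK k K)) :
    ∃ w : HeightOneSpectrum A₁, ofH w = P := by
  apply exists_ofH
  intro a
  apply le_one_of_integral (S := Rinf k) P.v
  · intro s
    have h1 : (P.v.comap (algebraMap (RatFunc k) K)).IsEquiv (vinf k) := by
      apply isEquiv_vinf
      · intro c hc
        rw [Valuation.comap_apply, ← IsScalarTower.algebraMap_apply]
        exact P.const c hc
      · exact h
    exact h1.le_one_iff_le_one.mpr s.2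
  · exact (IsIntegralClosure.isIntegral_iff (A := A₁)).mpr ⟨a, rfl⟩

theorem ofH₁_lt (w : HeightOneSpectrum A₁) : 1 < (ofH w : Pl k K).v (xK k K) := by
  by_contra hcon
  rw [not_lt] at hcon
  have hX : (RatFunc.X : RatFunc k) ≠ 0 := RatFunc.X_ne_zero
  -- all of `Rinf` has value `≤ 1`
  have h1 : ∀ s : Rinf k, (ofH w : Pl k K).v (algebraMap (RatFunc k) K (s : RatFunc k)) ≤ 1 := by
    intro s
    have : algebraMap (RatFunc k) K (s : RatFunc k) = algebraMap A₁ K (algebraMap (Rinf k) A₁ s) := by
      rw [← IsScalarTower.algebraMap_apply (Rinf k) A₁ K]; rfl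
    rw [this]
    exact w.valuation_le_one _
  -- hence all of `RatFunc k`
  have h2 : ∀ f : RatFunc k, (ofH w : Pl k K).v (algebraMap (RatFunc k) K f) ≤ 1 := by
    intro f
    by_cases hf : f = 0
    · simp [hf]
    · obtain ⟨n, hn⟩ := vinf_exp k hf
      have h3 : f * RatFunc.X ^ (-n) ∈ Rinf k := by
        rw [mem_Rinf, map_mul, hn, vinf_X_zpow, ← exp_add]; simp
      have hxv : (ofH w : Pl k K).v (xK k K) = 1 := by
        refine le_antisymm hcon ?_
        have h4 : (RatFunc.X : RatFunc k)⁻¹ ∈ Rinf k := by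
          rw [mem_Rinf, ← zpow_neg_one, vinf_X_zpow, ← exp_zero, exp_le_exp]; norm_num
        have h5 := h1 ⟨_, h4⟩
        simp only [map_inv₀] at h5
        have h6 : 0 < (ofH w : Pl k K).v (xK k K) := by
          rw [Valuation.pos_iff]; simpa [xK] using hX
        exact (inv_le_one₀ h6).mp h5
      have h4 := h1 ⟨_, h3⟩
      simp only [map_mul, map_zpow₀] at h4
      have hxv' : (ofH w : Pl k K).v (algebraMap (RatFunc k) K RatFunc.X) = 1 := hxv
      rwa [hxv', one_zpow, mul_one] at h4
  have h3 : ∀ a : K, (ofH w : Pl k K).v a ≤ 1 := by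
    intro a
    exact le_one_of_integral (S := RatFunc k) _ h2 (Algebra.IsIntegral.isIntegral a)
  obtain ⟨y, hy⟩ := (ofH w : Pl k K).surj (exp 1)
  have h4 := h3 y
  rw [hy, ← exp_zero, exp_le_exp] at h4
  norm_num at h4

end chart1

end Global

end Crest.Agent.R013.RR8_948
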