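import Mathlib
import Crest.Agent.R013.RR8_948

/-!
# R013 / RR9: divisors, Riemann-Roch with two charts (helper948)
-/

set_option autoImplicit false
set_option linter.unusedSectionVars false

namespace Crest.Agent.R013.RR9_948

open Polynomial WithZero Module IsDedekindDomain nonZeroDivisors
open Crest.Agent.R013.RR1_948 Crest.Agent.R013.RR2_948 Crest.Agent.R013.RR3_948
open Crest.Agent.R013.RR4_948 Crest.Agent.R013.RR5_948 Crest.Agent.R013.RR6_948
open Crest.Agent.R013.RR7_948 Crest.Agent.R013.RR8_948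

section Defs

variable {k : Type*} [Field k] {K : Type*} [Field K] [Algebra k K]

/-- the Riemann-Roch space: `f` with `ord_P f ≥ -D P` for all `P` -/
noncomputable def LD (D : Pl k K →₀ ℤ) : Submodule k K := ⨅ P, ball P (D P)

theorem mem_LD {D : Pl k K →₀ ℤ} {f : K} : f ∈ LD D ↔ ∀ P : Pl k K, P.v f ≤ exp (D P) := by
  simp [LD, Submodule.mem_iInf, mem_ball]

/-- degree of a divisor -/
noncomputable def degD (D : Pl k K →₀ ℤ) : ℤ := D.sum fun P n => n * (degP P : ℤ)

/-- dimension of the Riemann-Roch space -/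
noncomputable def ell (D : Pl k K →₀ ℤ) : ℕ := Module.finrank k (LD D)

theorem degD_zero : degD (0 : Pl k K →₀ ℤ) = 0 := by simp [degD]

theorem degD_add (D D' : Pl k K →₀ ℤ) : degD (D + D') = degD D + degD D' := by
  classical
  unfold degD
  exact Finsupp.sum_add_index' (fun P => by simp) (fun P a b => by ring)

theorem degD_single (P : Pl k K) (n : ℤ) : degD (Finsupp.single P n) = n * degP P := by
  unfold degD
  rw [Finsupp.sum_single_index]; simp

theorem degD_neg (D : Pl k K →₀ ℤ) : degD (-D) = -degD D := by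
  have := degD_add D (-D)
  rw [add_neg_cancel, degD_zero] at this
  omega

theorem degD_sub (D D' : Pl k K →₀ ℤ) : degD (D - D') = degD D - degD D' := by
  rw [sub_eq_add_neg, degD_add, degD_neg]; ring

variable {A : Type*} [CommRing A] [IsDedekindDomain A] [Algebra k A] [Algebra A K]
  [IsScalarTower k A K] [IsFractionRing A K]

variable (A) in
/-- restriction of a divisor to a chart -/
noncomputable def cut (D : Pl k K →₀ ℤ) : HeightOneSpectrum A →₀ ℤ :=
  D.comapDomain ofH (ofH_injective.injOn)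

theorem cut_apply (D : Pl k K →₀ ℤ) (w : HeightOneSpectrum A) : cut A D w = D (ofH w) := rfl

variable (A) in
/-- the chart lattice of a divisor -/
noncomputable def NA (D : Pl k K →₀ ℤ) : Submodule k K := fidS K k (cut A D)

theorem mem_NA {D : Pl k K →₀ ℤ} {f : K} :
    f ∈ NA A D ↔ ∀ w : HeightOneSpectrum A, (ofH w : Pl k K).v f ≤ exp (D (ofH w)) := by
  unfold NA
  rw [mem_fidS]
  rfl

theorem cut_add_single_ofH (D : Pl k K →₀ ℤ) (w : HeightOneSpectrum A) :
    cut A (D + Finsupp.single (ofH w) 1) = cut A D + Finsupp.single w 1 := by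
  classical
  ext w'
  rw [cut_apply, Finsupp.add_apply, Finsupp.add_apply, cut_apply, Finsupp.single_apply,
    Finsupp.single_apply]
  congr 1
  by_cases h : w = w'
  · simp [h]
  · rw [if_neg h, if_neg (fun h' => h (ofH_injective h'))]

theorem cut_add_single_of_ne (D : Pl k K →₀ ℤ) (P : Pl k K)
    (hP : ∀ w : HeightOneSpectrum A, ofH w ≠ P) :
    cut A (D + Finsupp.single P 1) = cut A D := by
  classical
  ext w'
  rw [cut_apply, Finsupp.add_apply, cut_apply, Finsupp.single_apply, if_neg (hP w').symm, add_zero]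

end Defs

theorem xK_ne_zero {k : Type*} [Field k] {K : Type*} [Field K] [Algebra (RatFunc k) K] :
    xK k K ≠ 0 := by
  unfold xK
  rw [ne_eq, FaithfulSMul.algebraMap_eq_zero_iff]
  exact RatFunc.X_ne_zero

section Global

variable {k : Type*} [Field k] {K : Type*} [Field K] [Algebra k K] [Algebra (RatFunc k) K]
  [IsScalarTower k (RatFunc k) K] [FiniteDimensional (RatFunc k) K]
  [Algebra.IsSeparable (RatFunc k) K]
  [Algebra k[X] K] [IsScalarTower k[X] (RatFunc k) K]
  (A₀ : Type*) [CommRing A₀] [IsDedekindDomain A₀] [Algebra k A₀] [Algebra A₀ K]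
  [IsScalarTower k A₀ K] [IsFractionRing A₀ K] [Algebra k[X] A₀]
  [IsScalarTower k[X] A₀ K] [IsIntegralClosure A₀ k[X] K]
  (A₁ : Type*) [CommRing A₁] [IsDedekindDomain A₁] [Algebra k A₁] [Algebra A₁ K]
  [IsScalarTower k A₁ K] [IsFractionRing A₁ K] [Algebra (Rinf k) A₁]
  [IsScalarTower (Rinf k) A₁ K] [IsIntegralClosure A₁ (Rinf k) K]

include A₀ A₁ in
theorem chart_cases (P : Pl k K) :
    (∃ w : HeightOneSpectrum A₀, ofH w = P) ∨ (∃ w : HeightOneSpectrum A₁, ofH w = P) := by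
  rcases le_or_gt (P.v (xK k K)) 1 with h | h
  · exact Or.inl (exists_ofH₀ P h)
  · exact Or.inr (exists_ofH₁ P h)

theorem ofH₀_ne_ofH₁ (w : HeightOneSpectrum A₀) (w' : HeightOneSpectrum A₁) :
    (ofH w : Pl k K) ≠ ofH w' := by
  intro h
  have h1 := ofH₀_le (k := k) (K := K) w
  have h2 := ofH₁_lt (k := k) (K := K) w'
  rw [h] at h1
  exact absurd h2 (not_lt.mpr h1)

theorem LD_eq (D : Pl k K →₀ ℤ) : LD D = NA A₀ D ⊓ NA A₁ D := by
  ext f
  rw [mem_LD, Submodule.mem_inf, mem_NA, mem_NA]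
  constructor
  · intro h
    exact ⟨fun w => h _, fun w => h _⟩
  · rintro ⟨h0, h1⟩ P
    rcases chart_cases A₀ A₁ P with ⟨w, rfl⟩ | ⟨w, rfl⟩
    · exact h0 w
    · exact h1 w

include A₀ A₁ in
/-- functions have finitely many zeros and poles -/
theorem finite_ne_one {f : K} (hf : f ≠ 0) : {P : Pl k K | P.v f ≠ 1}.Finite := by
  have h0 := finite_valuation_ne_one (O := A₀) K hf
  have h1 := finite_valuation_ne_one (O := A₁) K hf
  refine ((h0.image (ofH : HeightOneSpectrum A₀ → Pl k K)).union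
    (h1.image (ofH : HeightOneSpectrum A₁ → Pl k K))).subset ?_
  intro P hP
  simp only [Set.mem_ofPred_eq] at hP
  rcases chart_cases A₀ A₁ P with ⟨w, rfl⟩ | ⟨w, rfl⟩
  · exact Or.inl ⟨w, hP, rfl⟩
  · exact Or.inr ⟨w, hP, rfl⟩

variable (k K) in
/-- the pole divisor of `x` on the infinite chart -/
noncomputable def poleX : HeightOneSpectrum A₁ →₀ ℤ :=
  Finsupp.ofSupportFinite (fun w => log (w.valuation K (xK k K))) (by
    have hx : xK k K ≠ 0 := xK_ne_zero
    refine (finite_valuation_ne_one (O := A₁) K hx).subset ?_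
    intro w hw
    simp only [Function.mem_support] at hw
    simp only [Set.mem_ofPred_eq]
    intro h
    rw [h] at hw
    simp at hw)

theorem poleX_spec (w : HeightOneSpectrum A₁) :
    (ofH w : Pl k K).v (xK k K) = exp (poleX k K A₁ w) := by
  have hx : xK k K ≠ 0 := xK_ne_zero
  show w.valuation K (xK k K) = exp (log (w.valuation K (xK k K)))
  rw [exp_log]
  exact (Valuation.ne_zero_iff _).mpr hx

variable (k K) in
/-- the canonical divisor, the divisor of `dx` -/
noncomputable def WD : Pl k K →₀ ℤ :=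
  (diffD k[X] (RatFunc k) K A₀).mapDomain ofH +
    (diffD (Rinf k) (RatFunc k) K A₁ - 2 • poleX k K A₁).mapDomain ofH

theorem WD_ofH₀ (w : HeightOneSpectrum A₀) :
    WD k K A₀ A₁ (ofH w) = diffD k[X] (RatFunc k) K A₀ w := by
  unfold WD
  rw [Finsupp.add_apply, Finsupp.mapDomain_apply ofH_injective, Finsupp.mapDomain_of_notMem_range,
    add_zero]
  rintro ⟨w', hw'⟩
  exact ofH₀_ne_ofH₁ A₀ A₁ w w' hw'.symm

theorem WD_ofH₁ (w : HeightOneSpectrum A₁) :
    WD k K A₀ A₁ (ofH w) = diffD (Rinf k) (RatFunc k) K A₁ w - 2 * poleX k K A₁ w := by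
  unfold WD
  rw [Finsupp.add_apply, Finsupp.mapDomain_apply ofH_injective, Finsupp.mapDomain_of_notMem_range,
    zero_add]
  · simp
  · rintro ⟨w', hw'⟩
    exact ofH₀_ne_ofH₁ A₀ A₁ w' w hw'

theorem cut₀_WD_sub (D : Pl k K →₀ ℤ) :
    cut A₀ (WD k K A₀ A₁ - D) = diffD k[X] (RatFunc k) K A₀ - cut A₀ D := by
  ext w
  rw [cut_apply, Finsupp.sub_apply, WD_ofH₀, Finsupp.sub_apply, cut_apply]

theorem dualP_NA (D : Pl k K →₀ ℤ) : dualP (NA A₀ D) = NA A₀ (WD k K A₀ A₁ - D) := by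
  ext y
  rw [mem_dualP]
  have h1 : y ∈ NA A₀ (WD k K A₀ A₁ - D) ↔
      y ∈ fid K (diffD k[X] (RatFunc k) K A₀ - cut A₀ D) := by
    unfold NA
    rw [cut₀_WD_sub]
    rfl
  rw [h1, mem_fid_diff_sub]
  refine forall₂_congr fun x _ => ?_
  rw [mem_polyS]

theorem dualI_NA (D : Pl k K →₀ ℤ) : dualI (NA A₁ D) = NA A₁ (WD k K A₀ A₁ - D) := by
  ext y
  have hx : xK k K ≠ 0 := xK_ne_zero
  have h1 : y ∈ NA A₁ (WD k K A₀ A₁ - D) ↔
      y * xK k K ^ 2 ∈ fid K (diffD (Rinf k) (RatFunc k) K A₁ - cut A₁ D) := by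
    rw [mem_NA, mem_fid]
    refine forall_congr' fun w => ?_
    rw [Finsupp.sub_apply, WD_ofH₁, Finsupp.sub_apply, cut_apply, map_mul, map_pow]
    have h2 : w.valuation K (xK k K) = exp (poleX k K A₁ w) := poleX_spec A₁ w
    rw [h2, ← exp_nsmul]
    show w.valuation K y ≤ _ ↔ _
    have h3 : exp (diffD (Rinf k) (RatFunc k) K A₁ w - D (ofH w))
        = exp (diffD (Rinf k) (RatFunc k) K A₁ w - 2 * poleX k K A₁ w - D (ofH w)) *
          exp (2 • poleX k K A₁ w) := by
      rw [← exp_add]; congr 1; rw [two_nsmul]; ring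
    rw [h3]
    exact (mul_le_mul_iff_left₀ (by simp)).symm
  rw [h1, mem_fid_diff_sub, mem_dualI]
  refine forall₂_congr fun x _ => ?_
  have h4 : Algebra.trace (RatFunc k) K (y * xK k K ^ 2 * x)
      = RatFunc.X ^ 2 * Algebra.trace (RatFunc k) K (y * x) := by
    have : y * xK k K ^ 2 * x = (RatFunc.X ^ 2 : RatFunc k) • (y * x) := by
      rw [Algebra.smul_def, map_pow]
      unfold xK
      ring
    rw [this, map_smul, smul_eq_mul]
  rw [h4, mem_infS]
  have h5 : ∀ f : RatFunc k, f ∈ Set.range (algebraMap (Rinf k) (RatFunc k)) ↔ vinf k f ≤ 1 := by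
    intro f
    constructor
    · rintro ⟨s, rfl⟩; exact s.2
    · intro h; exact ⟨⟨f, h⟩, rfl⟩
  generalize Algebra.trace (RatFunc k) K (y * x) = t
  rw [h5, map_mul, map_pow, vinf_X, ← exp_nsmul]
  have h6 : (1 : ℤᵐ⁰) = exp (2 • 1) * exp (-2) := by rw [← exp_add]; simp
  conv_rhs => rw [h6]
  exact (mul_le_mul_iff_right₀ (by simp)).symm

theorem duality_NA (D : Pl k K →₀ ℤ) :
    (∃ n : ℕ, h0 (NA A₀ D) (NA A₁ D) = n) ∧ (∃ n : ℕ, h1 (NA A₀ D) (NA A₁ D) = n) ∧
    h1 (NA A₀ D) (NA A₁ D) = h0 (NA A₀ (WD k K A₀ A₁ - D)) (NA A₁ (WD k K A₀ A₁ - D)) := by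
  obtain ⟨b0, hb0⟩ := exists_basis_fid k[X] (RatFunc k) K (cut A₀ D)
  obtain ⟨c, hc⟩ := exists_basis_fid (Rinf k) (RatFunc k) K (cut A₁ D)
  have h := duality b0 c (NA A₀ D) (NA A₁ D) (by
    intro x
    have h1 : x ∈ NA A₀ D ↔ x ∈ Submodule.span k[X] (Set.range b0) := by
      rw [hb0]; rfl
    rw [h1, b0.mem_span_iff_repr_mem k[X]]
    refine forall_congr' fun j => ?_
    rw [mem_polyS]) (by
    intro x
    have h1 : x ∈ NA A₁ D ↔ x ∈ Submodule.span (Rinf k) (Set.range c) := by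
      rw [hc]; rfl
    rw [h1, c.mem_span_iff_repr_mem (Rinf k)]
    refine forall_congr' fun j => ?_
    constructor
    · rintro ⟨s, hs⟩; rw [← hs]; exact s.2
    · intro h; exact ⟨⟨_, h⟩, rfl⟩)
  rw [dualP_NA A₀ A₁, dualI_NA A₀ A₁] at h
  exact ⟨h.1, h.2.1, h.2.2.1⟩

end Global

end Crest.Agent.R013.RR9_948
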