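import Mathlib
import Crest.Agent.R013.RR9_948

/-!
# R013 / RR10: Riemann-Roch (two charts form) (helper948)
-/

set_option autoImplicit false
set_option linter.unusedSectionVars false

namespace Crest.Agent.R013.RR10_948

open Polynomial WithZero Module IsDedekindDomain nonZeroDivisors
open Crest.Agent.R013.RR1_948 Crest.Agent.R013.RR2_948 Crest.Agent.R013.RR3_948
open Crest.Agent.R013.RR4_948 Crest.Agent.R013.RR5_948 Crest.Agent.R013.RR6_948
open Crest.Agent.R013.RR7_948 Crest.Agent.R013.RR8_948 Crest.Agent.R013.RR9_948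

theorem finite_of_length {k M : Type*} [Field k] [AddCommGroup M] [Module k M] {n : ℕ}
    (h : Module.length k M = n) : Module.Finite k M ∧ Module.finrank k M = n := by
  have h1 : Module.length k M ≠ ⊤ := by rw [h]; exact ENat.natCast_ne_top n
  have h2 : IsFiniteLength k M := Module.length_ne_top_iff.mp h1
  have h3 := isFiniteLength_iff_isNoetherian_isArtinian.mp h2
  have h4 : Module.Finite k M := by
    have := h3.1
    infer_instance
  refine ⟨h4, ?_⟩
  have h5 := Module.length_eq_finrank k M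
  rw [h] at h5
  exact_mod_cast h5.symm

section Global

variable {k : Type*} [Field k] {K : Type*} [Field K] [Algebra k K] [Algebra (RatFunc k) K]
  [IsScalarTower k (RatFunc k) K] [FiniteDimensional (RatFunc k) K]
  [Algebra.IsSeparable (RatFunc k) K]
  [Algebra k[X] K] [IsScalarTower k[X] (RatFunc k) K]
  (A₀ : Type*) [CommRing A₀] [IsDedekindDomain A₀] [Algebra k A₀] [Algebra A₀ K]
  [IsScalarTower k A₀ K] [IsFractionRing A₀ K] [Algebra k[X] A₀]
  [IsScalarTower k[X] A₀ K] [IsIntegralClosure A₀ k[X] K]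
  (A₁ : Type*) [CommRing A₁] [IsDedekindDomain A₁] [Algebra k A₁] [Algebra A₁ K]
  [IsScalarTower k A₁ K] [IsFractionRing A₁ K] [Algebra (Rinf k) A₁]
  [IsScalarTower (Rinf k) A₁ K] [IsIntegralClosure A₁ (Rinf k) K]

/-- dimension of `H^1` -/
noncomputable def hh1 (D : Pl k K →₀ ℤ) : ℕ := (h1 (NA A₀ D) (NA A₁ D)).toNat

theorem hh1_eq (D : Pl k K →₀ ℤ) : h1 (NA A₀ D) (NA A₁ D) = hh1 A₀ A₁ D := by
  obtain ⟨_, ⟨n, hn⟩, _⟩ := duality_NA A₀ A₁ D
  unfold hh1
  rw [hn]; rfl

include A₀ A₁ in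
theorem LD_finite (D : Pl k K →₀ ℤ) : Module.Finite k (LD D) := by
  obtain ⟨⟨n, hn⟩, _, _⟩ := duality_NA A₀ A₁ D
  rw [LD_eq A₀ A₁]
  exact (finite_of_length hn).1

theorem ell_eq (D : Pl k K →₀ ℤ) : h0 (NA A₀ D) (NA A₁ D) = ell D := by
  obtain ⟨⟨n, hn⟩, _, _⟩ := duality_NA A₀ A₁ D
  unfold ell
  rw [LD_eq A₀ A₁, (finite_of_length hn).2, hn]

theorem hh1_eq_ell (D : Pl k K →₀ ℤ) : hh1 A₀ A₁ D = ell (WD k K A₀ A₁ - D) := by
  have h := (duality_NA A₀ A₁ D).2.2
  rw [hh1_eq, ell_eq] at h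
  exact_mod_cast h

theorem chi_step_aux (a b c d : ℕ) (r : ℕ∞) (h : (a : ℕ∞) + b = c + d + r) :
    ∃ n : ℕ, r = n ∧ (a : ℤ) - d = c - b + n := by
  have hr : r ≠ ⊤ := by
    rintro rfl
    rw [add_top] at h
    exact ENat.natCast_ne_top (a + b) (by push_cast; exact h)
  obtain ⟨n, rfl⟩ := ENat.ne_top_iff_exists.mp hr
  refine ⟨n, rfl, ?_⟩
  have h' : a + b = c + d + n := by exact_mod_cast h
  omega

theorem chi_step (D : Pl k K →₀ ℤ) (P : Pl k K) :
    degE P = degP P ∧
    (ell (D + Finsupp.single P 1) : ℤ) - hh1 A₀ A₁ (D + Finsupp.single P 1)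
      = ell D - hh1 A₀ A₁ D + degP P := by
  have key : ∃ n : ℕ, degE P = n ∧
    (ell (D + Finsupp.single P 1) : ℤ) - hh1 A₀ A₁ (D + Finsupp.single P 1)
      = ell D - hh1 A₀ A₁ D + n := by
    rcases chart_cases A₀ A₁ P with ⟨w, rfl⟩ | ⟨w, rfl⟩
    · have e1 : NA A₁ (D + Finsupp.single (ofH w) 1) = NA A₁ D := by
        unfold NA
        rw [cut_add_single_of_ne]
        intro w'
        exact (ofH₀_ne_ofH₁ A₀ A₁ w w').symm
      have e2 : NA A₀ (D + Finsupp.single (ofH w) 1)
          = fidS K k (cut A₀ D + Finsupp.single w 1) := by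
        unfold NA
        rw [cut_add_single_ofH]
      have hle : fidS K k (cut A₀ D) ≤ fidS K k (cut A₀ D + Finsupp.single w 1) := by
        apply fidS_mono
        intro w'
        classical
        rw [Finsupp.add_apply, Finsupp.single_apply]
        split_ifs <;> omega
      have h := chi_index (NA A₁ D) hle
      rw [ri_fidS, ← degE_ofH (K := K) w, ← e2] at h
      have e3 : h0 (NA A₁ D) (NA A₀ (D + Finsupp.single (ofH w) 1))
          = ell (D + Finsupp.single (ofH w) 1) := by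
        rw [h0_comm, ← ell_eq A₀ A₁, e1]
      have e4 : h1 (NA A₁ D) (NA A₀ (D + Finsupp.single (ofH w) 1))
          = hh1 A₀ A₁ (D + Finsupp.single (ofH w) 1) := by
        rw [h1_comm, ← hh1_eq A₀ A₁, e1]
      have e5 : h0 (NA A₁ D) (fidS K k (cut A₀ D)) = ell D := by
        rw [h0_comm, ← ell_eq A₀ A₁]; rfl
      have e6 : h1 (NA A₁ D) (fidS K k (cut A₀ D)) = hh1 A₀ A₁ D := by
        rw [h1_comm, ← hh1_eq A₀ A₁]; rfl
      rw [e3, e4, e5, e6] at h
      exact chi_step_aux _ _ _ _ _ h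
    · have e1 : NA A₀ (D + Finsupp.single (ofH w) 1) = NA A₀ D := by
        unfold NA
        rw [cut_add_single_of_ne]
        intro w'
        exact (ofH₀_ne_ofH₁ A₀ A₁ w' w)
      have e2 : NA A₁ (D + Finsupp.single (ofH w) 1)
          = fidS K k (cut A₁ D + Finsupp.single w 1) := by
        unfold NA
        rw [cut_add_single_ofH]
      have hle : fidS K k (cut A₁ D) ≤ fidS K k (cut A₁ D + Finsupp.single w 1) := by
        apply fidS_mono
        intro w'
        classical
        rw [Finsupp.add_apply, Finsupp.single_apply]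
        split_ifs <;> omega
      have h := chi_index (NA A₀ D) hle
      rw [ri_fidS, ← degE_ofH (K := K) w, ← e2] at h
      have e3 : h0 (NA A₀ D) (NA A₁ (D + Finsupp.single (ofH w) 1))
          = ell (D + Finsupp.single (ofH w) 1) := by
        rw [← ell_eq A₀ A₁, e1]
      have e4 : h1 (NA A₀ D) (NA A₁ (D + Finsupp.single (ofH w) 1))
          = hh1 A₀ A₁ (D + Finsupp.single (ofH w) 1) := by
        rw [← hh1_eq A₀ A₁, e1]
      have e5 : h0 (NA A₀ D) (fidS K k (cut A₁ D)) = ell D := by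
        rw [← ell_eq A₀ A₁]; rfl
      have e6 : h1 (NA A₀ D) (fidS K k (cut A₁ D)) = hh1 A₀ A₁ D := by
        rw [← hh1_eq A₀ A₁]; rfl
      rw [e3, e4, e5, e6] at h
      exact chi_step_aux _ _ _ _ _ h
  obtain ⟨n, hn, h⟩ := key
  have hd : degP P = n := by
    unfold degP; rw [hn]; rfl
  exact ⟨by rw [hn, hd], by rw [h, hd]⟩

include A₀ A₁ in
theorem degE_eq (P : Pl k K) : degE P = degP P := (chi_step A₀ A₁ 0 P).1

include A₀ A₁ in
theorem degP_pos (P : Pl k K) : 0 < degP P := by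
  have h1 := degE_eq A₀ A₁ P
  have h2 := degE_pos P
  rw [h1] at h2
  have h3 : degP P ≠ 0 := by exact_mod_cast h2
  omega

theorem chi_eq (D : Pl k K →₀ ℤ) :
    (ell D : ℤ) - hh1 A₀ A₁ D = degD D + (ell (0 : Pl k K →₀ ℤ) - hh1 A₀ A₁ (0 : Pl k K →₀ ℤ)) := by
  classical
  -- general shift
  have hstep : ∀ (P : Pl k K) (n : ℤ) (D : Pl k K →₀ ℤ),
      (ell (D + Finsupp.single P n) : ℤ) - hh1 A₀ A₁ (D + Finsupp.single P n)
      = ell D - hh1 A₀ A₁ D + n * degP P := by
    intro P n
    induction n using Int.induction_on with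
    | zero => intro D; simp
    | succ i ih =>
      intro D
      have e : D + Finsupp.single P ((i : ℤ) + 1)
          = (D + Finsupp.single P (i : ℤ)) + Finsupp.single P 1 := by
        rw [add_assoc, ← Finsupp.single_add]
      rw [e, (chi_step A₀ A₁ _ P).2, ih D]
      ring
    | pred i ih =>
      intro D
      have e : D + Finsupp.single P (-(i : ℤ))
          = (D + Finsupp.single P (-(i : ℤ) - 1)) + Finsupp.single P 1 := by
        rw [add_assoc, ← Finsupp.single_add]; simp
      have h1 := ih D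
      rw [e, (chi_step A₀ A₁ _ P).2] at h1
      linarith
  induction D using Finsupp.induction with
  | zero => rw [degD_zero]; ring
  | single_add P n D _ _ ih =>
    rw [add_comm, hstep, ih, degD_add, degD_single]
    ring

/-- Riemann-Roch, Euler characteristic form -/
theorem rr_charts (D : Pl k K →₀ ℤ) :
    (ell D : ℤ) - ell (WD k K A₀ A₁ - D) =
      degD D + (ell (0 : Pl k K →₀ ℤ) - ell (WD k K A₀ A₁)) := by
  have h := chi_eq A₀ A₁ D
  rw [hh1_eq_ell, hh1_eq_ell, sub_zero] at h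
  exact h

end Global

end Crest.Agent.R013.RR10_948
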