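import Mathlib
import Crest.Agent.R013.RR10_948

/-!
# R013 / RR11: Riemann-Roch, final form (helper948)

`k` a field, `K` a finite separable extension of `k(X)`.
-/

set_option autoImplicit false
set_option linter.unusedSectionVars false
set_option linter.all false

namespace Crest.Agent.R013.RR11_948

open Polynomial WithZero Module IsDedekindDomain nonZeroDivisors
open Crest.Agent.R013.RR1_948 Crest.Agent.R013.RR2_948 Crest.Agent.R013.RR3_948
open Crest.Agent.R013.RR4_948 Crest.Agent.R013.RR5_948 Crest.Agent.R013.RR6_948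
open Crest.Agent.R013.RR7_948 Crest.Agent.R013.RR8_948 Crest.Agent.R013.RR9_948
open Crest.Agent.R013.RR10_948

section Concrete

variable (k : Type*) [Field k] (K : Type*) [Field K] [Algebra k K] [Algebra (RatFunc k) K]
  [IsScalarTower k (RatFunc k) K]

/-- the `k[X]`-algebra structure -/
@[reducible] noncomputable def algPoly : Algebra k[X] K :=
  ((algebraMap (RatFunc k) K).comp (algebraMap k[X] (RatFunc k))).toAlgebra

theorem towerPoly : letI := algPoly k K; IsScalarTower k[X] (RatFunc k) K := by
  letI := algPoly k K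
  exact IsScalarTower.of_algebraMap_eq fun x => rfl

theorem mem_C0 (c : k) : letI := algPoly k K; algebraMap k K c ∈ integralClosure k[X] K := by
  letI := algPoly k K
  haveI := towerPoly k K
  have h : algebraMap k K c = algebraMap k[X] K (Polynomial.C c) := by
    rw [IsScalarTower.algebraMap_apply k[X] (RatFunc k) K, RatFunc.algebraMap_C,
      ← algebraMap_eq_C, ← IsScalarTower.algebraMap_apply]
  rw [h]
  exact Subalgebra.algebraMap_mem _ _

theorem mem_C1 (c : k) : algebraMap k K c ∈ integralClosure (Rinf k) K := by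
  have hc : RatFunc.C c ∈ Rinf k := (mem_Rinf k).mpr (vinf_C_le k c)
  have h : algebraMap k K c = algebraMap (Rinf k) K ⟨RatFunc.C c, hc⟩ := by
    rw [IsScalarTower.algebraMap_apply k (RatFunc k) K, algebraMap_eq_C]
    rfl
  rw [h]
  exact Subalgebra.algebraMap_mem _ _

/-- the finite chart as a `k`-algebra -/
@[reducible] noncomputable def algC0 : letI := algPoly k K; Algebra k (integralClosure k[X] K) :=
  letI := algPoly k K
  ((algebraMap k K).codRestrict (integralClosure k[X] K) (mem_C0 k K)).toAlgebra

/-- the infinite chart as a `k`-algebra -/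
@[reducible] noncomputable def algC1 : Algebra k (integralClosure (Rinf k) K) :=
  ((algebraMap k K).codRestrict (integralClosure (Rinf k) K) (mem_C1 k K)).toAlgebra

/-- chart instances -/
macro "use_charts" k:term ", " K:term : tactic => `(tactic|
  (letI := algPoly $k $K
   haveI := towerPoly $k $K
   letI := algC0 $k $K
   letI := algC1 $k $K
   haveI : IsScalarTower $k (integralClosure (Polynomial $k) $K) $K :=
     IsScalarTower.of_algebraMap_eq fun _ => rfl
   haveI : IsScalarTower $k (integralClosure (Rinf $k) $K) $K :=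
     IsScalarTower.of_algebraMap_eq fun _ => rfl
   haveI : IsDedekindDomain (integralClosure (Polynomial $k) $K) :=
     integralClosure.isDedekindDomain (Polynomial $k) (RatFunc $k) $K
   haveI : IsDedekindDomain (integralClosure (Rinf $k) $K) :=
     integralClosure.isDedekindDomain (Rinf $k) (RatFunc $k) $K
   haveI : IsFractionRing (integralClosure (Polynomial $k) $K) $K :=
     integralClosure.isFractionRing_of_finite_extension (RatFunc $k) $K
   haveI : IsFractionRing (integralClosure (Rinf $k) $K) $K :=
     integralClosure.isFractionRing_of_finite_extension (RatFunc $k) $K))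

variable [FiniteDimensional (RatFunc k) K] [Algebra.IsSeparable (RatFunc k) K]

/-- the canonical divisor (divisor of `dX`) -/
noncomputable def canD : Pl k K →₀ ℤ := by
  use_charts k, K
  exact WD k K (integralClosure (Polynomial k) K) (integralClosure (Rinf k) K)

variable {k K}

theorem LD_finite (D : Pl k K →₀ ℤ) : Module.Finite k (LD D) := by
  use_charts k, K
  exact RR10_948.LD_finite (integralClosure (Polynomial k) K) (integralClosure (Rinf k) K) D

theorem finite_ne_one {f : K} (hf : f ≠ 0) : {P : Pl k K | P.v f ≠ 1}.Finite := by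
  use_charts k, K
  exact RR9_948.finite_ne_one (integralClosure (Polynomial k) K) (integralClosure (Rinf k) K) hf

theorem degE_eq (P : Pl k K) : degE P = degP P := by
  use_charts k, K
  exact RR10_948.degE_eq (integralClosure (Polynomial k) K) (integralClosure (Rinf k) K) P

theorem degP_pos (P : Pl k K) : 0 < degP P := by
  use_charts k, K
  exact RR10_948.degP_pos (integralClosure (Polynomial k) K) (integralClosure (Rinf k) K) P

/-- Riemann-Roch, form with `χ(0)` (no hypothesis on constants) -/
theorem rr_chi (D : Pl k K →₀ ℤ) :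
    (ell D : ℤ) - ell (canD k K - D) =
      degD D + (ell (0 : Pl k K →₀ ℤ) - ell (canD k K)) := by
  use_charts k, K
  exact rr_charts (integralClosure (Polynomial k) K) (integralClosure (Rinf k) K) D

/-- the divisor of zeros minus the divisor of poles: `-log (v_P f)` -/
noncomputable def divf (f : K) : Pl k K →₀ ℤ := by
  classical
  exact if hf : f = 0 then 0 else
    Finsupp.ofSupportFinite (fun P => -log (P.v f)) (by
      refine (finite_ne_one (k := k) hf).subset ?_
      intro P hP
      simp only [Function.mem_support] at hP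
      simp only [Set.mem_ofPred_eq]
      intro h
      rw [h] at hP
      simp at hP)

theorem v_eq {f : K} (hf : f ≠ 0) (P : Pl k K) : P.v f = exp (-divf (k := k) f P) := by
  have h : divf (k := k) f P = -log (P.v f) := by
    unfold divf
    rw [dif_neg hf]
    rfl
  rw [h, neg_neg, exp_log]
  exact (Valuation.ne_zero_iff _).mpr hf

theorem divf_mul {f g : K} (hf : f ≠ 0) (hg : g ≠ 0) :
    divf (k := k) (f * g) = divf f + divf g := by
  ext P
  have h := map_mul P.v f g
  rw [v_eq hf, v_eq hg, v_eq (mul_ne_zero hf hg), ← exp_add, exp_inj] at h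
  rw [Finsupp.add_apply]
  omega

theorem divf_one : divf (k := k) (1 : K) = 0 := by
  ext P
  have h := v_eq (k := k) (one_ne_zero : (1 : K) ≠ 0) P
  rw [map_one, ← exp_zero, exp_inj] at h
  rw [Finsupp.zero_apply]
  omega

theorem divf_inv {f : K} (hf : f ≠ 0) : divf (k := k) f⁻¹ = -divf f := by
  have h := divf_mul (k := k) hf (inv_ne_zero hf)
  rw [mul_inv_cancel₀ hf, divf_one] at h
  exact (neg_eq_of_add_eq_zero_right h.symm).symm

theorem mem_LD_iff {D : Pl k K →₀ ℤ} {f : K} (hf : f ≠ 0) :
    f ∈ LD D ↔ 0 ≤ D + divf f := by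
  rw [mem_LD]
  constructor
  · intro h P
    have h1 := h P
    rw [v_eq hf, exp_le_exp] at h1
    rw [Finsupp.zero_apply, Finsupp.add_apply]
    omega
  · intro h P
    have h1 := h P
    rw [Finsupp.zero_apply, Finsupp.add_apply] at h1
    rw [v_eq hf, exp_le_exp]
    omega

/-- multiplication by `f` is an isomorphism `L(D + div f) = L(D)` -/
theorem ell_add_divf (D : Pl k K →₀ ℤ) {f : K} (hf : f ≠ 0) : ell (D + divf f) = ell D := by
  unfold ell
  have e : K ≃ₗ[k] K := LinearEquiv.refl k K
  let m : K ≃ₗ[k] K :=
    { toFun := fun x => f * x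
      invFun := fun x => f⁻¹ * x
      map_add' := fun x y => mul_add _ _ _
      map_smul' := fun c x => by simp [mul_smul_comm]
      left_inv := fun x => by simp [hf]
      right_inv := fun x => by simp [hf] }
  have h : (LD (D + divf f)).map (m : K →ₗ[k] K) = LD D := by
    ext y
    simp only [Submodule.mem_map]
    constructor
    · rintro ⟨x, hx, rfl⟩
      show f * x ∈ LD D
      rw [mem_LD] at hx ⊢
      intro P
      rw [map_mul, v_eq hf]
      have h1 := hx P
      rw [Finsupp.add_apply] at h1
      calc _ ≤ exp (-divf f P) * exp (D P + divf f P) := mul_le_mul_right h1 _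
        _ = exp (D P) := by rw [← exp_add]; congr 1; ring
    · intro hy
      refine ⟨f⁻¹ * y, ?_, ?_⟩
      · rw [mem_LD] at hy ⊢
        intro P
        rw [map_mul, map_inv₀, v_eq hf, ← exp_neg, neg_neg, Finsupp.add_apply]
        calc _ ≤ exp (divf f P) * exp (D P) := mul_le_mul_right (hy P) _
          _ = _ := by rw [← exp_add]; congr 1; ring
      · show f * (f⁻¹ * y) = y
        rw [← mul_assoc, mul_inv_cancel₀ hf, one_mul]
  rw [← h]
  exact (LinearEquiv.finrank_map_eq m _).symm

/-- the degree of a principal divisor is zero -/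
theorem degD_divf {f : K} (hf : f ≠ 0) : degD (divf (k := k) f) = 0 := by
  have h0 := rr_chi (divf (k := k) f)
  have h1 := ell_add_divf (0 : Pl k K →₀ ℤ) hf
  have h2 := ell_add_divf (canD k K) (inv_ne_zero hf)
  rw [zero_add] at h1
  rw [divf_inv hf, ← sub_eq_add_neg] at h2
  rw [h1, h2] at h0
  omega

theorem eq_zero_of_degD_neg {D : Pl k K →₀ ℤ} (hD : degD D < 0) {f : K} (hf : f ∈ LD D) :
    f = 0 := by
  by_contra h0
  rw [mem_LD_iff h0] at hf
  have h1 : 0 ≤ degD (D + divf f) := by
    unfold degD
    exact Finsupp.sum_nonneg fun P _ => mul_nonneg (hf P) (by positivity)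
  rw [degD_add, degD_divf h0] at h1
  omega

theorem ell_of_degD_neg {D : Pl k K →₀ ℤ} (hD : degD D < 0) : ell D = 0 := by
  unfold ell
  have : LD D = ⊥ := by
    rw [eq_bot_iff]
    intro f hf
    exact eq_zero_of_degD_neg hD hf
  rw [this]
  simp

/-- a function without poles is algebraic over the constants -/
theorem isAlgebraic_of_no_poles {f : K} (hf : ∀ P : Pl k K, P.v f ≤ 1) : IsAlgebraic k f := by
  have hfin := LD_finite (0 : Pl k K →₀ ℤ)
  have hpow : ∀ n : ℕ, f ^ n ∈ LD (0 : Pl k K →₀ ℤ) := by
    intro n
    rw [mem_LD]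
    intro P
    rw [Finsupp.zero_apply, exp_zero, map_pow]
    exact pow_le_one' (hf P) n
  let S : Subalgebra k K := Algebra.adjoin k {f}
  have hS : Subalgebra.toSubmodule S ≤ LD (0 : Pl k K →₀ ℤ) := by
    intro x hx
    have hx' : x ∈ Algebra.adjoin k {f} := hx
    rw [Algebra.adjoin_singleton_eq_range_aeval] at hx'
    obtain ⟨p, rfl⟩ := hx'
    show Polynomial.aeval f p ∈ _
    rw [Polynomial.aeval_eq_sum_range]
    exact Submodule.sum_mem _ fun i _ => Submodule.smul_mem _ _ (hpow i)
  have hSfin : FiniteDimensional k S := Submodule.finiteDimensional_of_le hS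
  have h1 : IsIntegral k (⟨f, Algebra.self_mem_adjoin_singleton k f⟩ : S) :=
    Algebra.IsIntegral.isIntegral _
  have h2 : IsIntegral k f := by
    have := h1.map S.val
    exact this
  exact h2.isAlgebraic

/-- `L(0) = k` -/
theorem LD_zero (hc : algebraicClosure k K = ⊥) : LD (0 : Pl k K →₀ ℤ) = 1 := by
  ext f
  rw [mem_LD, Submodule.mem_one]
  constructor
  · intro h
    have h1 : IsAlgebraic k f := isAlgebraic_of_no_poles (k := k) fun P => by
      have := h P
      rwa [Finsupp.zero_apply, exp_zero] at this
    have h2 : f ∈ algebraicClosure k K := mem_algebraicClosure_iff.mpr h1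
    rw [hc] at h2
    exact h2
  · rintro ⟨c, rfl⟩ P
    rw [Finsupp.zero_apply, exp_zero]
    by_cases hc0 : c = 0
    · simp [hc0]
    · rw [P.const c hc0]

theorem ell_zero (hc : algebraicClosure k K = ⊥) : ell (0 : Pl k K →₀ ℤ) = 1 := by
  unfold ell
  rw [LD_zero hc, Submodule.one_eq_span, finrank_span_singleton one_ne_zero]

variable (k K) in
/-- the genus -/
noncomputable def gen : ℕ := ell (canD k K)

/-- **Riemann-Roch** -/
theorem riemann_roch (hc : algebraicClosure k K = ⊥) (D : Pl k K →₀ ℤ) :
    (ell D : ℤ) = degD D + 1 - gen k K + ell (canD k K - D) := by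
  have h := rr_chi D
  rw [ell_zero hc] at h
  unfold gen
  push_cast at h
  linarith

theorem degD_canD (hc : algebraicClosure k K = ⊥) : degD (canD k K) = 2 * gen k K - 2 := by
  have h := riemann_roch hc (canD k K)
  rw [sub_self, ell_zero hc] at h
  unfold gen at *
  push_cast at h
  linarith

theorem ell_eq_of_lt (hc : algebraicClosure k K = ⊥) {D : Pl k K →₀ ℤ}
    (hD : 2 * (gen k K : ℤ) - 2 < degD D) : (ell D : ℤ) = degD D + 1 - gen k K := by
  have h := riemann_roch hc D
  rw [ell_of_degD_neg (D := canD k K - D) (by rw [degD_sub, degD_canD hc]; omega)] at h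
  push_cast at h
  linarith

theorem ell_ge (hc : algebraicClosure k K = ⊥) (D : Pl k K →₀ ℤ) :
    degD D + 1 - gen k K ≤ ell D := by
  rw [riemann_roch hc D]
  have : (0 : ℤ) ≤ ell (canD k K - D) := by positivity
  linarith

/-- the canonical divisor is determined up to linear equivalence (numerical form): any `W'` with the
Riemann-Roch property and `deg W' = 2g - 2`, `ℓ(W') ≥ g` is linearly equivalent to `canD`. -/
theorem exists_eq_add_divf (hc : algebraicClosure k K = ⊥) {W : Pl k K →₀ ℤ}
    (hdeg : degD W = 2 * gen k K - 2) (hell : gen k K ≤ ell W) :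
    ∃ f : K, f ≠ 0 ∧ W = canD k K + divf f := by
  have h := riemann_roch hc W
  have h1 : 1 ≤ ell (canD k K - W) := by
    have : (1 : ℤ) ≤ ell (canD k K - W) := by
      have h2 : (gen k K : ℤ) ≤ ell W := by exact_mod_cast hell
      linarith
    exact_mod_cast this
  have h2 : LD (canD k K - W) ≠ ⊥ := by
    intro h0
    unfold ell at h1
    rw [h0] at h1
    simp at h1
  obtain ⟨f, hf, hf0⟩ := Submodule.exists_mem_ne_zero_of_ne_bot h2
  rw [mem_LD_iff hf0] at hf
  refine ⟨f, hf0, ?_⟩
  have hE : degD (canD k K - W + divf f) = 0 := by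
    rw [degD_add, degD_sub, degD_canD hc, hdeg, degD_divf hf0]; ring
  have hzero : canD k K - W + divf f = 0 := by
    ext P
    by_contra hP
    rw [Finsupp.zero_apply] at hP
    have hpos : 0 < degD (canD k K - W + divf f) := by
      unfold degD
      refine Finset.sum_pos' (fun Q _ => mul_nonneg (hf Q) (by positivity)) ⟨P, ?_, ?_⟩
      · exact Finsupp.mem_support_iff.mpr hP
      · have h3 : 0 < (canD k K - W + divf f : Pl k K →₀ ℤ) P := lt_of_le_of_ne (hf P) (Ne.symm hP)
        have h4 : 0 < (degP P : ℤ) := by exact_mod_cast degP_pos P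
        exact mul_pos h3 h4
    omega
  have h5 : canD k K + divf f - W = 0 := by rw [← hzero]; abel
  exact (sub_eq_zero.mp h5).symm

end Concrete

end Crest.Agent.R013.RR11_948
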